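import Claimed.Agent.R285.Base.RG

/-!
# ROW 285, package PK-HOL, file 1: calculus of `difs`, `tnorm`, `strip`, `ptNorm`   (owner helper278)
Proofs of the contracts of `R285/Read/B4.lean`, section 4 (same names, same statements), plus the exports used by the other files of the package.
-/

set_option autoImplicit false

namespace Claimed.Agent.R285.Hol

open scoped BigOperators ENNReal NNReal
open MeasureTheory ProbabilityTheory
open Claimed.Agent.R285.RG

noncomputable section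

variable {G : Geom}

/-! ## 1. iterated differences -/

/-- iterated differences along a list -/
def dl {α : Type} [AddGroup α] (l : List (Fin 4)) (f : ℤ × ℤ → α) : ℤ × ℤ → α :=
  l.foldr (fun i g => dif (dir i) g) f

theorem difs_eq_dl {α : Type} [AddGroup α] {r : ℕ} (a : Fin r → Fin 4) (f : ℤ × ℤ → α) :
    difs a f = dl (List.ofFn a) f := rfl

theorem dl_nil {α : Type} [AddGroup α] (f : ℤ × ℤ → α) : dl [] f = f := rfl

theorem dl_cons {α : Type} [AddGroup α] (i : Fin 4) (l : List (Fin 4)) (f : ℤ × ℤ → α) :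
    dl (i :: l) f = dif (dir i) (dl l f) := rfl

theorem dl_map {α β : Type} [AddGroup α] [AddGroup β] (T : α →+ β) (l : List (Fin 4)) (f : ℤ × ℤ → α) (x : ℤ × ℤ) :
    dl l (fun y => T (f y)) x = T (dl l f x) := by
  induction l generalizing x with
  | nil => rfl
  | cons i l ih => simp only [dl_cons, dif, ih, map_sub]

theorem dl_add {α : Type} [AddCommGroup α] (l : List (Fin 4)) (f f' : ℤ × ℤ → α) (x : ℤ × ℤ) :
    dl l (fun y => f y + f' y) x = dl l f x + dl l f' x := by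
  induction l generalizing x with
  | nil => rfl
  | cons i l ih => simp only [dl_cons, dif, ih]; abel

theorem dl_const {α : Type} [AddGroup α] (i : Fin 4) (l : List (Fin 4)) (c : α) (x : ℤ × ℤ) :
    dl (i :: l) (fun _ => c) x = 0 := by
  induction l generalizing i x with
  | nil => simp [dl_cons, dl_nil, dif]
  | cons j l ih => rw [dl_cons]; simp only [dif, ih, sub_self]

theorem dl_nnnorm_le {α : Type} [NormedAddCommGroup α] (l : List (Fin 4)) (f : ℤ × ℤ → α) (K : ℝ≥0) (hK : ∀ y, ‖f y‖₊ ≤ K)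
    (x : ℤ × ℤ) : ‖dl l f x‖₊ ≤ 2 ^ l.length * K := by
  induction l generalizing x with
  | nil => simpa [dl_nil] using hK x
  | cons i l ih =>
    simp only [dl_cons, dif, List.length_cons]
    calc ‖dl l f (x + dir i) - dl l f x‖₊ ≤ ‖dl l f (x + dir i)‖₊ + ‖dl l f x‖₊ := nnnorm_sub_le _ _
      _ ≤ 2 ^ l.length * K + 2 ^ l.length * K := add_le_add (ih _) (ih _)
      _ = 2 ^ (l.length + 1) * K := by ring

theorem difs_map {α β : Type} [AddGroup α] [AddGroup β] (T : α →+ β) {r : ℕ} (a : Fin r → Fin 4) (f : ℤ × ℤ → α) (x : ℤ × ℤ) :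
    difs a (fun y => T (f y)) x = T (difs a f x) := dl_map T _ f x

theorem difs_add {α : Type} [AddCommGroup α] {r : ℕ} (a : Fin r → Fin 4) (f f' : ℤ × ℤ → α) (x : ℤ × ℤ) :
    difs a (fun y => f y + f' y) x = difs a f x + difs a f' x := dl_add _ f f' x

theorem difs_const {α : Type} [AddGroup α] {r : ℕ} (a : Fin (r + 1) → Fin 4) (c : α) (x : ℤ × ℤ) :
    difs a (fun _ => c) x = 0 := by
  rw [difs_eq_dl, List.ofFn_succ]
  exact dl_const _ _ c x

theorem difs_nnnorm_le {α : Type} [NormedAddCommGroup α] {r : ℕ} (a : Fin r → Fin 4) (f : ℤ × ℤ → α) (K : ℝ≥0)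
    (hK : ∀ y, ‖f y‖₊ ≤ K) (x : ℤ × ℤ) : ‖difs a f x‖₊ ≤ 2 ^ r * K := by
  have := dl_nnnorm_le (List.ofFn a) f K hK x
  simpa [difs_eq_dl] using this

/-- one difference -/
theorem difs_one {α : Type} [AddGroup α] (a : Fin 1 → Fin 4) (f : ℤ × ℤ → α) : difs a f = dif (dir (a 0)) f := by
  rw [difs_eq_dl]
  simp [List.ofFn_succ, dl_cons, dl_nil]

theorem lift_add {α : Type} [Add α] (f f' : G.V → α) : G.lift (f + f') = fun y => G.lift f y + G.lift f' y := rfl

theorem lift_comp {α β : Type} (T : α → β) (f : G.V → α) : G.lift (fun v => T (f v)) = fun y => T (G.lift f y) := rfl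

/-! ## 2. the test norm -/

theorem tnorm_le_iff {α : Type} [NormedAddCommGroup α] (g : Grid G) (X : Finset g.I) (f : G.V → α) (c : ℝ≥0) :
    tnorm g X f ≤ c ↔ ∀ v ∈ g.Dm X, ‖f v‖₊ ≤ c ∧
      (∀ a : Fin 1 → Fin 4, (g.m : ℝ≥0) * ‖difs a (G.lift f) (G.ι v)‖₊ ≤ c) ∧
      ∀ a : Fin 2 → Fin 4, (g.m : ℝ≥0) ^ 2 * ‖difs a (G.lift f) (G.ι v)‖₊ ≤ c := by
  unfold tnorm nab
  simp only [Finset.sup_le_iff, max_le_iff, NNReal.mul_finset_sup, Finset.mem_univ, true_implies]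

theorem tnorm_spec {α : Type} [NormedAddCommGroup α] (g : Grid G) (X : Finset g.I) (f : G.V → α) :
    ∀ v ∈ g.Dm X, ‖f v‖₊ ≤ tnorm g X f ∧
      (∀ a : Fin 1 → Fin 4, (g.m : ℝ≥0) * ‖difs a (G.lift f) (G.ι v)‖₊ ≤ tnorm g X f) ∧
      ∀ a : Fin 2 → Fin 4, (g.m : ℝ≥0) ^ 2 * ‖difs a (G.lift f) (G.ι v)‖₊ ≤ tnorm g X f :=
  (tnorm_le_iff g X f _).1 le_rfl

theorem collar_mono (g : Grid G) {X Y : Finset g.I} (h : X ⊆ Y) : g.collar X ⊆ g.collar Y := by
  classical
  intro b hb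
  simp only [Grid.collar, Finset.mem_filter, Finset.mem_univ, true_and] at hb ⊢
  obtain ⟨a, ha, hab⟩ := hb
  exact ⟨a, h ha, hab⟩

theorem sites_mono (g : Grid G) {X Y : Finset g.I} (h : X ⊆ Y) : g.sites X ⊆ g.sites Y := by
  intro v hv
  simp only [Grid.sites, Finset.mem_filter, Finset.mem_univ, true_and] at hv ⊢
  exact h hv

theorem Dm_mono (g : Grid G) {X Y : Finset g.I} (h : X ⊆ Y) : g.Dm X ⊆ g.Dm Y :=
  sites_mono g (collar_mono g h)

theorem tnorm_mono {α : Type} [NormedAddCommGroup α] (g : Grid G) (X Y : Finset g.I) (h : X ⊆ Y) (f : G.V → α) :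
    tnorm g X f ≤ tnorm g Y f :=
  Finset.sup_mono (Dm_mono g h)

theorem tnorm_add_le {α : Type} [NormedAddCommGroup α] (g : Grid G) (X : Finset g.I) (f f' : G.V → α) :
    tnorm g X (f + f') ≤ tnorm g X f + tnorm g X f' := by
  rw [tnorm_le_iff]
  intro v hv
  obtain ⟨h0, h1, h2⟩ := tnorm_spec g X f v hv
  obtain ⟨h0', h1', h2'⟩ := tnorm_spec g X f' v hv
  refine ⟨(nnnorm_add_le _ _).trans (add_le_add h0 h0'), fun a => ?_, fun a => ?_⟩
  · rw [lift_add, difs_add]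
    calc (g.m : ℝ≥0) * ‖difs a (G.lift f) (G.ι v) + difs a (G.lift f') (G.ι v)‖₊
        ≤ (g.m : ℝ≥0) * (‖difs a (G.lift f) (G.ι v)‖₊ + ‖difs a (G.lift f') (G.ι v)‖₊) := by
          gcongr; exact nnnorm_add_le _ _
      _ ≤ _ := by rw [mul_add]; exact add_le_add (h1 a) (h1' a)
  · rw [lift_add, difs_add]
    calc (g.m : ℝ≥0) ^ 2 * ‖difs a (G.lift f) (G.ι v) + difs a (G.lift f') (G.ι v)‖₊
        ≤ (g.m : ℝ≥0) ^ 2 * (‖difs a (G.lift f) (G.ι v)‖₊ + ‖difs a (G.lift f') (G.ι v)‖₊) := by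
          gcongr; exact nnnorm_add_le _ _
      _ ≤ _ := by rw [mul_add]; exact add_le_add (h2 a) (h2' a)

/-- bounded additive maps -/
theorem tnorm_map_le {α β : Type} [NormedAddCommGroup α] [NormedAddCommGroup β] (T : α →+ β) (K : ℝ≥0)
    (hT : ∀ x, ‖T x‖₊ ≤ K * ‖x‖₊) (g : Grid G) (X : Finset g.I) (f : G.V → α) :
    tnorm g X (fun v => T (f v)) ≤ K * tnorm g X f := by
  rw [tnorm_le_iff]
  intro v hv
  obtain ⟨h0, h1, h2⟩ := tnorm_spec g X f v hv
  refine ⟨(hT _).trans (by gcongr), fun a => ?_, fun a => ?_⟩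
  · rw [lift_comp, difs_map]
    calc (g.m : ℝ≥0) * ‖T (difs a (G.lift f) (G.ι v))‖₊ ≤ (g.m : ℝ≥0) * (K * ‖difs a (G.lift f) (G.ι v)‖₊) := by
          gcongr; exact hT _
      _ = K * ((g.m : ℝ≥0) * ‖difs a (G.lift f) (G.ι v)‖₊) := by ring
      _ ≤ _ := by gcongr; exact h1 a
  · rw [lift_comp, difs_map]
    calc (g.m : ℝ≥0) ^ 2 * ‖T (difs a (G.lift f) (G.ι v))‖₊ ≤ (g.m : ℝ≥0) ^ 2 * (K * ‖difs a (G.lift f) (G.ι v)‖₊) := by
          gcongr; exact hT _
      _ = K * ((g.m : ℝ≥0) ^ 2 * ‖difs a (G.lift f) (G.ι v)‖₊) := by ring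
      _ ≤ _ := by gcongr; exact h2 a

theorem tnorm_zero {α : Type} [NormedAddCommGroup α] (g : Grid G) (X : Finset g.I) : tnorm g X (0 : G.V → α) = 0 := by
  have h := tnorm_map_le (0 : α →+ α) 0 (by simp) g X (0 : G.V → α)
  have h' : (fun v => (0 : α →+ α) ((0 : G.V → α) v)) = (0 : G.V → α) := by ext v; simp
  rw [h'] at h
  simpa using h

theorem tnorm_smul_le {𝕜 α : Type} [NormedField 𝕜] [NormedAddCommGroup α] [NormedSpace 𝕜 α] (c : 𝕜) (g : Grid G) (X : Finset g.I)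
    (f : G.V → α) : tnorm g X (c • f) ≤ ‖c‖₊ * tnorm g X f :=
  tnorm_map_le (DistribSMul.toAddMonoidHom α c) ‖c‖₊ (fun x => by simp [nnnorm_smul]) g X f

theorem tnorm_smul {𝕜 α : Type} [NormedField 𝕜] [NormedAddCommGroup α] [NormedSpace 𝕜 α] (c : 𝕜) (g : Grid G) (X : Finset g.I)
    (f : G.V → α) : tnorm g X (c • f) = ‖c‖₊ * tnorm g X f := by
  refine le_antisymm (tnorm_smul_le c g X f) ?_
  by_cases hc : c = 0
  · simp [hc]
  have h := tnorm_smul_le c⁻¹ g X (c • f)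
  rw [smul_smul, inv_mul_cancel₀ hc, one_smul, nnnorm_inv] at h
  have hc' : ‖c‖₊ ≠ 0 := by simpa using hc
  calc ‖c‖₊ * tnorm g X f ≤ ‖c‖₊ * (‖c‖₊⁻¹ * tnorm g X (c • f)) := by gcongr
    _ = tnorm g X (c • f) := by rw [← mul_assoc, mul_inv_cancel₀ hc', one_mul]

theorem tnorm_neg {α : Type} [NormedAddCommGroup α] (g : Grid G) (X : Finset g.I) (f : G.V → α) :
    tnorm g X (-f) = tnorm g X f := by
  have h : ∀ f : G.V → α, tnorm g X (-f) ≤ tnorm g X f := fun f => by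
    have := tnorm_map_le (-(AddMonoidHom.id α)) 1 (by simp) g X f
    have h' : (fun v => (-(AddMonoidHom.id α)) (f v)) = -f := by ext v; simp
    rw [h'] at this
    simpa using this
  refine le_antisymm (h f) ?_
  have := h (-f)
  rwa [neg_neg] at this

theorem tnorm_toC (g : Grid G) (X : Finset g.I) (f : G.V → ℝ) : tnorm g X (toC f) = tnorm g X f := by
  refine le_antisymm ?_ ?_
  · have := tnorm_map_le (Complex.ofRealHom.toAddMonoidHom) 1 (by simp) g X f
    have h' : (fun v => (Complex.ofRealHom.toAddMonoidHom) (f v)) = toC f := by ext v; simp [toC]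
    rw [h'] at this
    simpa using this
  · have := tnorm_map_le (Complex.reAddGroupHom) 1 (fun x => by
      rw [one_mul, ← NNReal.coe_le_coe]; simpa using Complex.abs_re_le_norm x) g X (toC f)
    simpa [toC] using this

theorem tnorm_im_le (g : Grid G) (X : Finset g.I) (z : G.V → ℂ) : tnorm g X (fun v => (z v).im) ≤ tnorm g X z := by
  have := tnorm_map_le (Complex.imAddGroupHom) 1 (fun x => by
      rw [one_mul, ← NNReal.coe_le_coe]; simpa using Complex.abs_im_le_norm x) g X z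
  simpa using this

theorem tnorm_re_le (g : Grid G) (X : Finset g.I) (z : G.V → ℂ) : tnorm g X (fun v => (z v).re) ≤ tnorm g X z := by
  have := tnorm_map_le (Complex.reAddGroupHom) 1 (fun x => by
      rw [one_mul, ← NNReal.coe_le_coe]; simpa using Complex.abs_re_le_norm x) g X z
  simpa using this

/-- constants -/
theorem tnorm_const_le {α : Type} [NormedAddCommGroup α] (g : Grid G) (X : Finset g.I) (c : α) :
    tnorm g X (fun _ : G.V => c) ≤ ‖c‖₊ := by
  rw [tnorm_le_iff]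
  intro v _
  refine ⟨le_rfl, fun a => ?_, fun a => ?_⟩
  · have : G.lift (fun _ : G.V => c) = fun _ => c := rfl
    rw [this, difs_const]; simp
  · have : G.lift (fun _ : G.V => c) = fun _ => c := rfl
    rw [this, difs_const]; simp

/-- comparison with the sup norm -/
theorem tnorm_le_norm {α : Type} [NormedAddCommGroup α] (g : Grid G) (X : Finset g.I) (f : G.V → α) :
    tnorm g X f ≤ (1 + 2 * (g.m : ℝ≥0) + 4 * (g.m : ℝ≥0) ^ 2) * ‖f‖₊ := by
  rw [tnorm_le_iff]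
  intro v _
  have hK : ∀ y, ‖G.lift f y‖₊ ≤ ‖f‖₊ := fun y => nnnorm_le_pi_nnnorm f _
  refine ⟨?_, fun a => ?_, fun a => ?_⟩
  · calc ‖f v‖₊ ≤ 1 * ‖f‖₊ := by rw [one_mul]; exact nnnorm_le_pi_nnnorm f v
      _ ≤ _ := by gcongr; exact le_add_right (le_add_right le_rfl)
  · calc (g.m : ℝ≥0) * ‖difs a (G.lift f) (G.ι v)‖₊ ≤ (g.m : ℝ≥0) * (2 ^ 1 * ‖f‖₊) := by
          gcongr; exact difs_nnnorm_le a _ _ hK _
      _ = (2 * (g.m : ℝ≥0)) * ‖f‖₊ := by ring
      _ ≤ _ := by gcongr; exact le_add_right (le_add_left le_rfl)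
  · calc (g.m : ℝ≥0) ^ 2 * ‖difs a (G.lift f) (G.ι v)‖₊ ≤ (g.m : ℝ≥0) ^ 2 * (2 ^ 2 * ‖f‖₊) := by
          gcongr; exact difs_nnnorm_le a _ _ hK _
      _ = (4 * (g.m : ℝ≥0) ^ 2) * ‖f‖₊ := by ring
      _ ≤ _ := by gcongr; exact le_add_left le_rfl

theorem tnorm_lipschitz {α : Type} [NormedAddCommGroup α] (g : Grid G) (X : Finset g.I) :
    LipschitzWith (1 + 2 * (g.m : ℝ≥0) + 4 * (g.m : ℝ≥0) ^ 2) (tnorm g X : (G.V → α) → ℝ≥0) := by
  refine LipschitzWith.of_dist_le_mul fun f f' => ?_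
  have key : ∀ f f' : G.V → α, (tnorm g X f : ℝ) - tnorm g X f' ≤
      ((1 + 2 * (g.m : ℝ≥0) + 4 * (g.m : ℝ≥0) ^ 2 : ℝ≥0) : ℝ) * dist f f' := by
    intro f f'
    have h1 : tnorm g X f ≤ tnorm g X (f - f') + tnorm g X f' := by
      have := tnorm_add_le g X (f - f') f'
      rwa [sub_add_cancel] at this
    have h2 := tnorm_le_norm g X (f - f')
    have h3 : (tnorm g X f : ℝ) ≤ ((1 + 2 * (g.m : ℝ≥0) + 4 * (g.m : ℝ≥0) ^ 2 : ℝ≥0) : ℝ) * ‖f - f'‖ + tnorm g X f' := by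
      have := h1.trans (add_le_add_left h2 _)
      exact_mod_cast this
    rw [dist_eq_norm]
    linarith
  rw [NNReal.dist_eq, abs_sub_le_iff]
  refine ⟨key f f', ?_⟩
  rw [dist_comm]
  exact key f' f

theorem tnorm_continuous {α : Type} [NormedAddCommGroup α] (g : Grid G) (X : Finset g.I) :
    Continuous (tnorm g X : (G.V → α) → ℝ≥0) := (tnorm_lipschitz g X).continuous

/-! ## 3. nested grids -/

/-- a monotone surjection of intervals is `1`-Lipschitz -/
theorem fin_mono_surj_lip {n n' : ℕ} (u : Fin n → Fin n') (hm : Monotone u) (hs : Function.Surjective u) {a b : Fin n}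
    (hab : a ≤ b) : (u b : ℕ) + a ≤ u a + b := by
  have hsub : Finset.Icc (u a) (u b) ⊆ (Finset.Icc a b).image u := by
    intro c hc
    rw [Finset.mem_Icc] at hc
    obtain ⟨x, rfl⟩ := hs c
    rw [Finset.mem_image]
    rcases lt_or_ge x a with h | h
    · exact ⟨a, Finset.mem_Icc.2 ⟨le_rfl, hab⟩, le_antisymm hc.1 (hm h.le)⟩
    rcases lt_or_ge b x with h' | h'
    · exact ⟨b, Finset.mem_Icc.2 ⟨hab, le_rfl⟩, le_antisymm (hm h'.le) hc.2⟩
    · exact ⟨x, Finset.mem_Icc.2 ⟨h, h'⟩, rfl⟩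
  have hc := (Finset.card_le_card hsub).trans Finset.card_image_le
  rw [Fin.card_Icc, Fin.card_Icc] at hc
  have h1 : (u a : ℕ) ≤ u b := hm hab
  have h2 : (a : ℕ) ≤ b := hab
  omega

theorem fin_mono_surj_le {n n' : ℕ} (u : Fin n → Fin n') (hm : Monotone u) (hs : Function.Surjective u) (a : Fin n) :
    (u a : ℕ) ≤ a := by
  have hn : 0 < n := a.pos
  have hn' : 0 < n' := (u a).pos
  obtain ⟨x, hx⟩ := hs ⟨0, hn'⟩
  have h0 : (u ⟨0, hn⟩ : ℕ) = 0 := by
    have : u ⟨0, hn⟩ ≤ u x := hm (Fin.mk_le_of_le_val (Nat.zero_le _))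
    rw [hx] at this
    exact Nat.le_zero.1 this
  have := fin_mono_surj_lip u hm hs (a := ⟨0, hn⟩) (b := a) (Fin.mk_le_of_le_val (Nat.zero_le _))
  simp only [h0] at this
  omega

theorem fin_mono_surj_ge {n n' : ℕ} (u : Fin n → Fin n') (hm : Monotone u) (hs : Function.Surjective u) (b : Fin n) :
    n' + (b : ℕ) ≤ n + u b := by
  have hn : 0 < n := b.pos
  have hn' : 0 < n' := (u b).pos
  obtain ⟨x, hx⟩ := hs ⟨n' - 1, by omega⟩
  have hxl : x ≤ ⟨n - 1, by omega⟩ := by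
    have := x.2
    exact Fin.le_def.2 (by simp only []; omega)
  have h0 : (u ⟨n - 1, by omega⟩ : ℕ) = n' - 1 := by
    have h1 : u x ≤ u ⟨n - 1, by omega⟩ := hm hxl
    rw [hx] at h1
    have h2 : n' - 1 ≤ (u ⟨n - 1, by omega⟩ : ℕ) := h1
    have h3 := (u ⟨n - 1, by omega⟩).2
    omega
  have hbl : b ≤ ⟨n - 1, by omega⟩ := by
    have := b.2
    exact Fin.le_def.2 (by simp only []; omega)
  have := fin_mono_surj_lip u hm hs hbl
  simp only [h0] at this
  omega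

section nest

variable {D0 ℓ : ℕ} (P : Pair G D0 ℓ)

theorem up1_mono : Monotone P.N.up1 := by
  intro a b hab
  obtain ⟨i, rfl⟩ := P.ok.surj a
  obtain ⟨j, rfl⟩ := P.ok.surj b
  rcases le_total i j with h | h
  · rw [← P.N.comm, ← P.N.comm]
    exact P.ok'.mono h
  · have : P.g.blk1 j = P.g.blk1 i := le_antisymm (P.ok.mono h) hab
    rw [this]

theorem up1_surj : Function.Surjective P.N.up1 := by
  intro c
  obtain ⟨i, rfl⟩ := P.ok'.surj c
  exact ⟨P.g.blk1 i, (P.N.comm i).symm⟩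

theorem idist1_up_le (a b : Fin P.g.n) : P.g'.idist1 (P.N.up1 a) (P.N.up1 b) ≤ P.g.idist1 a b := by
  have key : ∀ a b : Fin P.g.n, a ≤ b → P.g'.idist1 (P.N.up1 a) (P.N.up1 b) ≤ P.g.idist1 a b ∧
      P.g'.idist1 (P.N.up1 b) (P.N.up1 a) ≤ P.g.idist1 b a := by
    intro a b hab
    have h1 := fin_mono_surj_lip _ (up1_mono P) (up1_surj P) hab
    have h2 := fin_mono_surj_le _ (up1_mono P) (up1_surj P) a
    have h3 := fin_mono_surj_ge _ (up1_mono P) (up1_surj P) b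
    have h4 : (P.N.up1 a : ℕ) ≤ P.N.up1 b := up1_mono P hab
    have h5 : (a : ℕ) ≤ b := hab
    have h6 := b.2
    have h7 := (P.N.up1 b).2
    unfold Grid.idist1
    cases G.bc with
    | per => simp only []; omega
    | free => simp only []; omega
  rcases le_total a b with h | h
  · exact (key a b h).1
  · exact (key b a h).2

theorem idist_up_le (a b : P.g.I) : P.g'.idist (P.N.up a) (P.N.up b) ≤ P.g.idist a b :=
  max_le_max (idist1_up_le P _ _) (idist1_up_le P _ _)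

theorem blk_up (v : G.V) : P.g'.blk v = P.N.up (P.g.blk v) := by
  simp [Grid.blk, Nest.up, P.N.comm]

theorem Dm_coarse (X : Finset P.g.I) (Y : Finset P.g'.I) (h : P.N.cl X ⊆ Y) : P.g.Dm X ⊆ P.g'.Dm Y := by
  classical
  intro v hv
  simp only [Grid.Dm, Grid.sites, Grid.collar, Finset.mem_filter, Finset.mem_univ, true_and] at hv ⊢
  obtain ⟨a, ha, hab⟩ := hv
  refine ⟨P.N.up a, h (Finset.mem_image_of_mem _ ha), ?_⟩
  rw [blk_up]
  exact (idist_up_le P _ _).trans hab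

theorem m_le_m' : (P.g.m : ℝ≥0) ≤ P.g'.m := by
  have : P.g.m ≤ P.g'.m := by
    rw [P.hS]
    exact Nat.le_mul_of_pos_left _ (by positivity)
  exact_mod_cast this

/-- coarse test directions are fine test directions -/
theorem tnorm_coarse {α : Type} [NormedAddCommGroup α] (X : Finset P.g.I) (Y : Finset P.g'.I)
    (h : P.N.cl X ⊆ Y) (f : G.V → α) : tnorm P.g X f ≤ tnorm P.g' Y f := by
  rw [tnorm_le_iff]
  intro v hv
  obtain ⟨h0, h1, h2⟩ := tnorm_spec P.g' Y f v (Dm_coarse P X Y h hv)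
  have hm := m_le_m' P
  refine ⟨h0, fun a => le_trans ?_ (h1 a), fun a => le_trans ?_ (h2 a)⟩
  · gcongr
  · gcongr

end nest

/-! ## 4. the strip -/

theorem toC_continuous : Continuous (toC : (G.V → ℝ) → G.V → ℂ) :=
  continuous_pi fun v => Complex.continuous_ofReal.comp (continuous_apply v)

theorem toC_add (φ ζ : G.V → ℝ) : toC (φ + ζ) = toC φ + toC ζ := by
  ext v; simp [toC]

theorem toC_zero : toC (0 : G.V → ℝ) = 0 := by
  ext v; simp [toC]

theorem toC_smul (t : ℝ) (φ : G.V → ℝ) : toC (t • φ) = (t : ℂ) • toC φ := by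
  ext v; simp [toC]

theorem mem_strip {h : ℝ≥0} {g : Grid G} {X : Finset g.I} {z : G.V → ℂ} :
    z ∈ strip h g X ↔ tnorm g X (fun v => (z v).im) < h := Iff.rfl

theorem strip_isOpen (h : ℝ≥0) (g : Grid G) (X : Finset g.I) : IsOpen (strip h g X) := by
  have hc : Continuous fun z : G.V → ℂ => tnorm g X (fun v => (z v).im) :=
    (tnorm_continuous g X).comp (by fun_prop)
  exact isOpen_lt hc continuous_const

theorem strip_add_toC {h : ℝ≥0} {g : Grid G} {X : Finset g.I} {z : G.V → ℂ} (hz : z ∈ strip h g X) (ζ : G.V → ℝ) :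
    z + toC ζ ∈ strip h g X := by
  rw [mem_strip] at hz ⊢
  have : (fun v => ((z + toC ζ) v).im) = fun v => (z v).im := by ext v; simp [toC]
  rwa [this]

theorem strip_add_real {h : ℝ≥0} {g : Grid G} {X : Finset g.I} {z : G.V → ℂ} (hz : z ∈ strip h g X) (t : ℝ) :
    (fun v => z v + (t : ℂ)) ∈ strip h g X := by
  rw [mem_strip] at hz ⊢
  have : (fun v => (z v + (t : ℂ)).im) = fun v => (z v).im := by ext v; simp
  rwa [this]

theorem toC_add_mem_strip {h : ℝ≥0} {g : Grid G} {X : Finset g.I} (φ : G.V → ℝ) {f : G.V → ℂ} (hf : tnorm g X f < h) :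
    toC φ + f ∈ strip h g X := by
  rw [mem_strip]
  have : (fun v => ((toC φ + f) v).im) = fun v => (f v).im := by ext v; simp [toC]
  rw [this]
  exact (tnorm_im_le g X f).trans_lt hf

theorem strip_convex (h : ℝ≥0) (g : Grid G) (X : Finset g.I) : Convex ℝ (strip h g X) := by
  intro z hz z' hz' a b ha hb hab
  rw [mem_strip] at hz hz' ⊢
  have h1 : (fun v => ((a • z + b • z') v).im) = a • (fun v => (z v).im) + b • (fun v => (z' v).im) := by
    ext v; simp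
  rw [h1]
  refine (tnorm_add_le g X _ _).trans_lt ?_
  rw [tnorm_smul, tnorm_smul, ← NNReal.coe_lt_coe]
  push_cast
  rw [Real.norm_of_nonneg ha, Real.norm_of_nonneg hb]
  have hz1 : (tnorm g X (fun v => (z v).im) : ℝ) < h := by exact_mod_cast hz
  have hz2 : (tnorm g X (fun v => (z' v).im) : ℝ) < h := by exact_mod_cast hz'
  rcases eq_or_lt_of_le ha with h0 | h0
  · have hb1 : b = 1 := by linarith
    rw [← h0, hb1]; linarith
  · nlinarith

/-- decomposition of a point of the strip: real centre plus imaginary direction -/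
theorem strip_decomp (z : G.V → ℂ) : z = toC (fun v => (z v).re) + Complex.I • toC (fun v => (z v).im) := by
  ext v
  simp [toC, mul_comm Complex.I]

theorem tnorm_I_smul_toC (g : Grid G) (X : Finset g.I) (y : G.V → ℝ) : tnorm g X (Complex.I • toC y) = tnorm g X y := by
  rw [tnorm_smul, tnorm_toC]; simp

/-! ## 5. the point norm -/

theorem le_ptNorm (h0 : ℝ≥0) (g : Grid G) (X : Finset g.I) (F : Fn G) (φ : G.V → ℝ) (f : G.V → ℂ) (hf : tnorm g X f < h0) :
    (‖F (toC φ + f)‖₊ : ℝ≥0∞) ≤ ptNorm h0 g X F φ :=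
  le_iSup (fun f : {f : G.V → ℂ // tnorm g X f < h0} => (‖F (toC φ + f.1)‖₊ : ℝ≥0∞)) ⟨f, hf⟩

theorem ptNorm_le_iff (h0 : ℝ≥0) (g : Grid G) (X : Finset g.I) (F : Fn G) (φ : G.V → ℝ) (c : ℝ≥0∞) :
    ptNorm h0 g X F φ ≤ c ↔ ∀ f : G.V → ℂ, tnorm g X f < h0 → (‖F (toC φ + f)‖₊ : ℝ≥0∞) ≤ c := by
  unfold ptNorm
  rw [iSup_le_iff]
  exact ⟨fun h f hf => h ⟨f, hf⟩, fun h f => h f.1 f.2⟩

theorem ptNorm_mul (h0 : ℝ≥0) (g : Grid G) (X X' Y : Finset g.I) (hX : X ⊆ Y) (hX' : X' ⊆ Y) (F F' : Fn G) (φ : G.V → ℝ) :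
    ptNorm h0 g Y (F * F') φ ≤ ptNorm h0 g X F φ * ptNorm h0 g X' F' φ := by
  rw [ptNorm_le_iff]
  intro f hf
  have h1 := le_ptNorm h0 g X F φ f ((tnorm_mono g X Y hX f).trans_lt hf)
  have h2 := le_ptNorm h0 g X' F' φ f ((tnorm_mono g X' Y hX' f).trans_lt hf)
  calc (‖(F * F') (toC φ + f)‖₊ : ℝ≥0∞) = ‖F (toC φ + f)‖₊ * ‖F' (toC φ + f)‖₊ := by
        rw [Pi.mul_apply, nnnorm_mul, ENNReal.coe_mul]
    _ ≤ _ := mul_le_mul' h1 h2

theorem ptNorm_coarse {D0 ℓ : ℕ} (P : Pair G D0 ℓ) (h0 : ℝ≥0) (X : Finset P.g.I) (Y : Finset P.g'.I)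
    (h : P.N.cl X ⊆ Y) (F : Fn G) (φ : G.V → ℝ) : ptNorm h0 P.g' Y F φ ≤ ptNorm h0 P.g X F φ := by
  rw [ptNorm_le_iff]
  intro f hf
  exact le_ptNorm h0 P.g X F φ f ((tnorm_coarse P X Y h f).trans_lt hf)

theorem ptNorm_conv (h0 : ℝ≥0) (g : Grid G) (X : Finset g.I) (Γ : Matrix G.V G.V ℝ) (F : Fn G) (φ : G.V → ℝ) :
    ptNorm h0 g X (conv Γ F) φ ≤ ∫⁻ ζ, ptNorm h0 g X F (φ + ζ) ∂(gauss G Γ) := by
  rw [ptNorm_le_iff]
  intro f hf
  unfold conv
  calc (‖∫ ζ, F (toC φ + f + toC ζ) ∂(gauss G Γ)‖₊ : ℝ≥0∞)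
      ≤ ∫⁻ ζ, (‖F (toC φ + f + toC ζ)‖₊ : ℝ≥0∞) ∂(gauss G Γ) := enorm_integral_le_lintegral_enorm _
    _ ≤ _ := lintegral_mono fun ζ => by
        have : toC φ + f + toC ζ = toC (φ + ζ) + f := by rw [toC_add]; abel
        rw [this]
        exact le_ptNorm h0 g X F _ f hf

/-- re-centring: a real translation of norm `< h₀ - h₁` -/
theorem ptNorm_recentre (h0 h1 : ℝ≥0) (g : Grid G) (X : Finset g.I) (F : Fn G) (φ f : G.V → ℝ) (hf : tnorm g X f + h1 ≤ h0) :
    ptNorm h1 g X F (φ + f) ≤ ptNorm h0 g X F φ := by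
  rw [ptNorm_le_iff]
  intro f' hf'
  have h1' : toC (φ + f) + f' = toC φ + (toC f + f') := by rw [toC_add]; abel
  rw [h1']
  refine le_ptNorm h0 g X F φ _ ?_
  calc tnorm g X (toC f + f') ≤ tnorm g X (toC f) + tnorm g X f' := tnorm_add_le g X _ _
    _ = tnorm g X f + tnorm g X f' := by rw [tnorm_toC]
    _ < tnorm g X f + h1 := by gcongr
    _ ≤ h0 := hf

/-- the point norm of a function which is continuous in the strip is lower semicontinuous -/
theorem ptNorm_lsc (h0 : ℝ≥0) (g : Grid G) (X : Finset g.I) (F : Fn G) (hF : ContinuousOn F (strip h0 g X)) :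
    LowerSemicontinuous (ptNorm h0 g X F) := by
  unfold ptNorm
  refine lowerSemicontinuous_iSup fun f => Continuous.lowerSemicontinuous ?_
  have h1 : Continuous fun φ : G.V → ℝ => F (toC φ + f.1) :=
    hF.comp_continuous (toC_continuous.add continuous_const) fun φ => toC_add_mem_strip φ f.2
  exact ENNReal.continuous_coe.comp h1.nnnorm

theorem ptNorm_measurable (h0 : ℝ≥0) (g : Grid G) (X : Finset g.I) (F : Fn G) (hF : Hol h0 g X F) :
    Measurable (ptNorm h0 g X F) :=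
  (ptNorm_lsc h0 g X F hF.continuousOn).measurable

theorem Wt_pos (g : Grid G) (δ κ : ℝ) (V : Extra g) (X : Finset g.I) (φ : G.V → ℝ) : 0 < Wt g δ κ V X φ := Real.exp_pos _

theorem ptNorm_le_fnSize_mul (p : Par) (g : Grid G) (V : Extra g) (X : Finset g.I) (F : Fn G) (φ : G.V → ℝ) :
    ptNorm p.h0 g X F φ ≤ fnSize p g V X F * ENNReal.ofReal (Wt g p.δ p.κ V X φ) := by
  have h := le_iSup (fun φ : G.V → ℝ => ptNorm p.h0 g X F φ / ENNReal.ofReal (Wt g p.δ p.κ V X φ)) φ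
  rwa [ENNReal.div_le_iff (by simpa using Wt_pos g p.δ p.κ V X φ) ENNReal.ofReal_ne_top] at h

theorem fnSize_le_iff (p : Par) (g : Grid G) (V : Extra g) (X : Finset g.I) (F : Fn G) (c : ℝ≥0∞) :
    fnSize p g V X F ≤ c ↔ ∀ (φ : G.V → ℝ) (f : G.V → ℂ), tnorm g X f < p.h0 →
      (‖F (toC φ + f)‖₊ : ℝ≥0∞) ≤ c * ENNReal.ofReal (Wt g p.δ p.κ V X φ) := by
  unfold fnSize
  rw [iSup_le_iff]
  refine forall_congr' fun φ => ?_
  rw [ENNReal.div_le_iff (by simpa using Wt_pos g p.δ p.κ V X φ) ENNReal.ofReal_ne_top, ptNorm_le_iff]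

theorem nnnorm_le_fnSize_mul (p : Par) (g : Grid G) (V : Extra g) (X : Finset g.I) (F : Fn G) (φ : G.V → ℝ) (f : G.V → ℂ)
    (hf : tnorm g X f < p.h0) :
    (‖F (toC φ + f)‖₊ : ℝ≥0∞) ≤ fnSize p g V X F * ENNReal.ofReal (Wt g p.δ p.κ V X φ) :=
  (fnSize_le_iff p g V X F _).1 le_rfl φ f hf

end

end Claimed.Agent.R285.Hol
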