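import Claimed.Agent.R285.Hol.Cv

/-!
# ROW 285, package PK-HOL, file 6: the charge projections   (owner helper278)
`charge_proj` (locality, size, equivariance under complex constants), `charge_inversion` (Fourier inversion in the constant mode).
-/

set_option autoImplicit false

namespace Claimed.Agent.R285.Hol

open scoped BigOperators ENNReal NNReal
open MeasureTheory ProbabilityTheory Filter Topology
open Claimed.Agent.R285.RG

noncomputable section

variable {G : Geom}

/-! ## regulators are blind to constants -/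

theorem dif_lift_add_const (φ : G.V → ℝ) (c : ℝ) (e x : ℤ × ℤ) :
    dif e (G.lift fun v => φ v + c) x = dif e (G.lift φ) x := by
  simp [dif, Geom.lift]

theorem nab_lift_add_const (r : ℕ) (φ : G.V → ℝ) (c : ℝ) (x : ℤ × ℤ) :
    nab (r + 1) (G.lift fun v => φ v + c) x = nab (r + 1) (G.lift φ) x := by
  unfold nab
  refine Finset.sup_congr rfl fun a _ => ?_
  have h : G.lift (fun v => φ v + c) = fun y => G.lift φ y + (fun _ => c) y := rfl
  rw [h, difs_add, difs_const, add_zero]

theorem U_add_const (g : Grid G) (δ : ℝ) (X : Finset g.I) (φ : G.V → ℝ) (c : ℝ) :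
    U g δ X (fun v => φ v + c) = U g δ X φ := by
  unfold U gE PE TE
  simp only [dif_lift_add_const, nab_lift_add_const]

theorem Wt_add_const (g : Grid G) (δ κ : ℝ) (V : Extra g) (X : Finset g.I) (φ : G.V → ℝ) (c : ℝ) :
    Wt g δ κ V X (fun v => φ v + c) = Wt g δ κ V X φ := by
  unfold Wt
  rw [U_add_const, V.const]

/-! ## the kernel -/

/-- the character `e^{- i q (2π/ω) t}` -/
def chK (ω : ℝ) (q : ℤ) (t : ℂ) : ℂ := Complex.exp (-(Complex.I * q * ((2 * Real.pi / ω : ℝ) : ℂ) * t))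

theorem chargeProj_eq (ω : ℝ) (q : ℤ) (F : Fn G) (z : G.V → ℂ) :
    chargeProj ω q F z = ((1 / ω : ℝ) : ℂ) * ∫ t in (0 : ℝ)..ω, chK ω q t * F fun v => z v + (t : ℂ) := rfl

theorem chK_add (ω : ℝ) (q : ℤ) (s t : ℂ) : chK ω q (s + t) = chK ω q s * chK ω q t := by
  unfold chK
  rw [← Complex.exp_add]
  congr 1
  ring

theorem chK_period (ω : ℝ) (hω : ω ≠ 0) (q : ℤ) : chK ω q ω = 1 := by
  unfold chK
  have h : -(Complex.I * q * ((2 * Real.pi / ω : ℝ) : ℂ) * ω) = ((-q : ℤ) : ℂ) * (2 * Real.pi * Complex.I) := by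
    have hω' : (ω : ℂ) ≠ 0 := by exact_mod_cast hω
    push_cast
    field_simp
  rw [h, Complex.exp_int_mul_two_pi_mul_I]

theorem norm_chK_real (ω : ℝ) (q : ℤ) (t : ℝ) : ‖chK ω q t‖ = 1 := by
  unfold chK
  rw [Complex.norm_exp]
  have h : (-(Complex.I * q * ((2 * Real.pi / ω : ℝ) : ℂ) * t)).re = 0 := by
    have : Complex.I * q * ((2 * Real.pi / ω : ℝ) : ℂ) * t = ((q * (2 * Real.pi / ω) * t : ℝ) : ℂ) * Complex.I := by
      push_cast; ring
    rw [this]
    simp
  rw [h, Real.exp_zero]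

theorem chK_continuous (ω : ℝ) (q : ℤ) : Continuous (chK ω q) := by
  unfold chK
  fun_prop

theorem add_const_eq (z : G.V → ℂ) (c : ℂ) : (fun v => z v + c) = z + c • toC (fun _ => (1 : ℝ)) := by
  ext v; simp [toC]

theorem continuous_line {h : ℝ≥0} {g : Grid G} {X : Finset g.I} {F : Fn G} (hF : Hol h g X F) {z : G.V → ℂ}
    (hz : z ∈ strip h g X) : Continuous fun t : ℝ => F fun v => z v + (t : ℂ) :=
  hF.continuousOn.comp_continuous (by fun_prop) fun t => strip_add_real hz t

theorem norm_chargeProj_le (ω : ℝ) (hω : 0 < ω) (q : ℤ) (F : Fn G) (z : G.V → ℂ) (M : ℝ)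
    (hM : ∀ t ∈ Set.Icc (0 : ℝ) ω, ‖F fun v => z v + (t : ℂ)‖ ≤ M) : ‖chargeProj ω q F z‖ ≤ M := by
  rw [chargeProj_eq, norm_mul, Complex.norm_real, Real.norm_of_nonneg (by positivity)]
  have h1 : ‖∫ t in (0 : ℝ)..ω, chK ω q t * F fun v => z v + (t : ℂ)‖ ≤ M * |ω - 0| := by
    refine intervalIntegral.norm_integral_le_of_norm_le_const fun t ht => ?_
    rw [Set.uIoc_of_le hω.le] at ht
    rw [norm_mul, norm_chK_real, one_mul]
    exact hM t ⟨ht.1.le, ht.2⟩
  rw [sub_zero, abs_of_pos hω] at h1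
  calc 1 / ω * ‖∫ t in (0 : ℝ)..ω, chK ω q t * F fun v => z v + (t : ℂ)‖ ≤ 1 / ω * (M * ω) := by gcongr
    _ = M := by field_simp

/-- local boundedness along the constant mode -/
theorem line_local_bound {h : ℝ≥0} {g : Grid G} {X : Finset g.I} {F : Fn G} (hF : Hol h g X F) {z : G.V → ℂ}
    (hz : z ∈ strip h g X) (ω : ℝ) :
    ∃ ε > 0, ∃ M : ℝ, ∀ z' ∈ Metric.ball z ε, ∀ t ∈ Set.Icc (0 : ℝ) ω, ‖F fun v => z' v + (t : ℂ)‖ ≤ M := by
  obtain ⟨ε, hε, hball⟩ := Metric.isOpen_iff.1 (strip_isOpen h g X) z hz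
  have hK : IsCompact (Metric.closedBall z (ε / 2) ×ˢ Set.Icc (0 : ℝ) ω) :=
    (isCompact_closedBall z (ε / 2)).prod isCompact_Icc
  have hc : ContinuousOn (fun x : (G.V → ℂ) × ℝ => F fun v => x.1 v + (x.2 : ℂ))
      (Metric.closedBall z (ε / 2) ×ˢ Set.Icc (0 : ℝ) ω) := by
    refine hF.continuousOn.comp (Continuous.continuousOn (by fun_prop)) fun x hx => ?_
    exact strip_add_real (hball (Metric.closedBall_subset_ball (by linarith) hx.1)) _
  obtain ⟨M, hM⟩ := hK.exists_bound_of_continuousOn hc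
  exact ⟨ε / 2, by positivity, M, fun z' hz' t ht => hM (z', t) ⟨Metric.ball_subset_closedBall hz', ht⟩⟩

theorem chargeProj_hol {h : ℝ≥0} {g : Grid G} {X : Finset g.I} {F : Fn G} (hF : Hol h g X F) (ω : ℝ) (hω : 0 < ω) (q : ℤ) :
    Hol h g X (chargeProj ω q F) := by
  unfold Hol
  have h1 : chargeProj ω q F = fun z => ((1 / ω : ℝ) : ℂ) *
      ∫ t, chK ω q t * F (fun v => z v + (t : ℂ)) ∂(volume.restrict (Set.Ioc 0 ω)) := by
    ext z
    rw [chargeProj_eq, intervalIntegral.integral_of_le hω.le]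
  rw [h1]
  refine DifferentiableOn.const_mul ?_ _
  refine hol_integral_ae _ _ (strip_isOpen _ _ _) (fun z (t : ℝ) => chK ω q t * F (fun v => z v + (t : ℂ))) (fun t => ?_)
    (fun z hz => ?_) (fun z hz => ?_)
  · refine DifferentiableOn.const_mul ?_ _
    exact hF.comp (by fun_prop) fun z hz => strip_add_real hz t
  · exact (((chK_continuous ω q).comp Complex.continuous_ofReal).mul (continuous_line hF hz)).aestronglyMeasurable
  · obtain ⟨ε, hε, M, hM⟩ := line_local_bound hF hz ω
    refine ⟨ε, hε, fun _ => M, integrable_const _, ?_⟩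
    refine (ae_restrict_iff' measurableSet_Ioc).2 (Eventually.of_forall fun t ht z' hz' => ?_)
    rw [norm_mul, norm_chK_real, one_mul]
    exact hM z' hz' t ⟨ht.1.le, ht.2⟩

/-! ## equivariance -/

theorem line_periodic (p : Par) (col : ℕ) (g : Grid G) (X : Finset g.I) (F : Fn G) (hF : LocalFn p col g X F) {z : G.V → ℂ}
    (hz : z ∈ strip p.h0 g X) : Function.Periodic (fun t : ℝ => F fun v => z v + (t : ℂ)) p.ω := by
  intro t
  have h1 := hF.per _ (strip_add_real hz t)
  simp only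
  rw [← h1]
  congr 1
  ext v
  push_cast
  ring

theorem chargeProj_add_real (p : Par) (hω : 0 < p.ω) (col : ℕ) (g : Grid G) (X : Finset g.I) (F : Fn G)
    (hF : LocalFn p col g X F) (q : ℤ) {z : G.V → ℂ} (hz : z ∈ strip p.h0 g X) (a : ℝ) :
    chargeProj p.ω q F (fun v => z v + (a : ℂ))
      = Complex.exp (Complex.I * q * ((2 * Real.pi / p.ω : ℝ) : ℂ) * a) * chargeProj p.ω q F z := by
  set h : ℝ → ℂ := fun s => chK p.ω q s * F fun v => z v + (s : ℂ) with hh
  have hper : Function.Periodic h p.ω := by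
    intro s
    simp only [hh]
    have h0 : (F fun v => z v + ((s + p.ω : ℝ) : ℂ)) = F fun v => z v + (s : ℂ) := line_periodic p col g X F hF hz s
    rw [h0]
    congr 1
    push_cast
    rw [chK_add, chK_period p.ω hω.ne', mul_one]
  have h1 : ∀ t : ℝ, chK p.ω q t * F (fun v => z v + (a : ℂ) + (t : ℂ))
      = Complex.exp (Complex.I * q * ((2 * Real.pi / p.ω : ℝ) : ℂ) * a) * h (t + a) := by
    intro t
    simp only [hh]
    have h2 : (fun v => z v + (a : ℂ) + (t : ℂ)) = fun v => z v + ((t + a : ℝ) : ℂ) := by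
      ext v; push_cast; ring
    rw [h2, ← mul_assoc]
    congr 1
    push_cast
    rw [chK_add]
    have h3 : Complex.exp (Complex.I * q * ((2 * Real.pi / p.ω : ℝ) : ℂ) * a) * chK p.ω q a = 1 := by
      unfold chK
      rw [← Complex.exp_add, add_neg_cancel, Complex.exp_zero]
    calc chK p.ω q t = chK p.ω q t * (Complex.exp (Complex.I * q * ((2 * Real.pi / p.ω : ℝ) : ℂ) * a) * chK p.ω q a) := by
          rw [h3, mul_one]
      _ = _ := by push_cast; ring
  rw [chargeProj_eq, chargeProj_eq]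
  simp_rw [h1]
  rw [intervalIntegral.integral_const_mul, intervalIntegral.integral_comp_add_right, zero_add, add_comm p.ω a,
    hper.intervalIntegral_add_eq a 0, zero_add]
  ring

theorem chargeProj_add_const (p : Par) (hω : 0 < p.ω) (col : ℕ) (g : Grid G) (X : Finset g.I) (F : Fn G)
    (hF : LocalFn p col g X F) (q : ℤ) (z : G.V → ℂ) (c : ℂ) (hz : z ∈ strip p.h0 g X)
    (hzc : (fun v => z v + c) ∈ strip p.h0 g X) :
    chargeProj p.ω q F (fun v => z v + c)
      = Complex.exp (Complex.I * q * ((2 * Real.pi / p.ω : ℝ) : ℂ) * c) * chargeProj p.ω q F z := by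
  set u : G.V → ℝ := fun _ => 1 with hu
  have h0 : (0 : ℂ) ∈ lineDom p.h0 g X z u := by
    have := real_mem_lineDom hz u 0
    simpa using this
  have hc : c ∈ lineDom p.h0 g X z u := by
    show z + c • toC u ∈ strip p.h0 g X
    rw [← add_const_eq]
    exact hzc
  have hd : DifferentiableOn ℂ (fun a : ℂ => chargeProj p.ω q F (z + a • toC u)) (lineDom p.h0 g X z u) :=
    (chargeProj_hol hF.hol p.ω hω q).comp (by fun_prop) fun a ha => ha
  have key := eqOn_of_real_eq (lineDom_isOpen p.h0 g X z u) (lineDom_convex p.h0 g X z u).isPreconnected hd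
    (g := fun a : ℂ => Complex.exp (Complex.I * q * ((2 * Real.pi / p.ω : ℝ) : ℂ) * a) * chargeProj p.ω q F z)
    (by fun_prop) h0 (fun a _ => by
      rw [← add_const_eq]
      exact chargeProj_add_real p hω col g X F hF q hz a) hc
  simp only at key
  rw [add_const_eq]
  exact key

/-- the charge-`q` part is local, of the same size, and equivariant under COMPLEX constants inside the strip -/
theorem charge_proj (p : Par) (hω : 0 < p.ω) (col : ℕ) (g : Grid G) (V : Extra g) (X : Finset g.I) (F : Fn G)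
    (hF : LocalFn p col g X F) (q : ℤ) :
    LocalFn p col g X (chargeProj p.ω q F) ∧ fnSize p g V X (chargeProj p.ω q F) ≤ fnSize p g V X F ∧
    ∀ (z : G.V → ℂ) (c : ℂ), z ∈ strip p.h0 g X → (fun v => z v + c) ∈ strip p.h0 g X →
      chargeProj p.ω q F (fun v => z v + c) = Complex.exp (Complex.I * q * ((2 * Real.pi / p.ω : ℝ) : ℂ) * c) * chargeProj p.ω q F z := by
  refine ⟨⟨chargeProj_hol hF.hol p.ω hω q, fun z hz z' hz' hzz' => ?_, fun z hz => ?_⟩, ?_,
    fun z c hz hzc => chargeProj_add_const p hω col g X F hF q z c hz hzc⟩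
  · rw [chargeProj_eq, chargeProj_eq]
    congr 2
    ext t
    congr 1
    exact hF.loc _ (strip_add_real hz t) _ (strip_add_real hz' t) fun v hv => by rw [hzz' v hv]
  · rw [chargeProj_eq, chargeProj_eq]
    congr 2
    ext t
    congr 1
    rw [← hF.per _ (strip_add_real hz t)]
    congr 1
    ext v
    ring
  · rw [fnSize_le_iff]
    intro φ f hf
    by_cases hN : fnSize p g V X F = ⊤
    · rw [hN, ENNReal.top_mul (by simpa using Wt_pos g p.δ p.κ V X φ)]
      exact le_top
    have hfin : fnSize p g V X F * ENNReal.ofReal (Wt g p.δ p.κ V X φ) ≠ ⊤ := ENNReal.mul_ne_top hN ENNReal.ofReal_ne_top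
    have h1 : ‖chargeProj p.ω q F (toC φ + f)‖ ≤ (fnSize p g V X F * ENNReal.ofReal (Wt g p.δ p.κ V X φ)).toReal := by
      refine norm_chargeProj_le p.ω hω q F _ _ fun t _ => ?_
      have h2 : (fun v => (toC φ + f) v + (t : ℂ)) = toC (fun v => φ v + t) + f := by
        ext v; simp [toC]; ring
      rw [h2]
      have h3 := nnnorm_le_fnSize_mul p g V X F (fun v => φ v + t) f hf
      rw [Wt_add_const] at h3
      have h4 := ENNReal.toReal_mono hfin h3
      simpa using h4
    have h5 := ENNReal.ofReal_le_ofReal h1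
    rw [ENNReal.ofReal_toReal hfin, ofReal_norm, enorm_eq_nnnorm] at h5
    exact h5

/-! ## Fourier inversion -/

theorem summable_geometric_natAbs (M r : ℝ) (h0 : 0 ≤ r) (h1 : r < 1) : Summable fun q : ℤ => M * r ^ q.natAbs := by
  refine Summable.of_nat_of_neg ?_ ?_
  · simpa using (summable_geometric_of_lt_one h0 h1).mul_left M
  · simpa using (summable_geometric_of_lt_one h0 h1).mul_left M

/-- exponential decay of the charges -/
theorem chargeProj_decay (p : Par) (hω : 0 < p.ω) (col : ℕ) (g : Grid G) (X : Finset g.I) (F : Fn G)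
    (hF : LocalFn p col g X F) (z : G.V → ℂ) (hz : z ∈ strip p.h0 g X) :
    ∃ M r : ℝ, 0 ≤ r ∧ r < 1 ∧ ∀ q : ℤ, ‖chargeProj p.ω q F z‖ ≤ M * r ^ q.natAbs := by
  set u : G.V → ℝ := fun _ => 1 with hu
  have h0 : (0 : ℂ) ∈ lineDom p.h0 g X z u := by
    have := real_mem_lineDom hz u 0
    simpa using this
  obtain ⟨ε', hε', hball⟩ := Metric.isOpen_iff.1 (lineDom_isOpen p.h0 g X z u) 0 h0
  set ε := ε' / 2 with hε
  have hε0 : 0 < ε := by positivity
  have hmem : ∀ σ : ℝ, |σ| = 1 → (fun v => z v + (σ * ε : ℝ) * Complex.I) ∈ strip p.h0 g X := by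
    intro σ hσ
    rw [add_const_eq]
    apply hball
    rw [mem_ball_zero_iff, norm_mul, Complex.norm_I, mul_one, Complex.norm_real, Real.norm_eq_abs, abs_mul, hσ, one_mul,
      abs_of_pos hε0, hε]
    linarith
  have hbd : ∀ σ : ℝ, |σ| = 1 → ∃ M : ℝ, ∀ q : ℤ, ‖chargeProj p.ω q F (fun v => z v + (σ * ε : ℝ) * Complex.I)‖ ≤ M := by
    intro σ hσ
    obtain ⟨δ, hδ, M, hM⟩ := line_local_bound hF.hol (hmem σ hσ) p.ω
    exact ⟨M, fun q => norm_chargeProj_le p.ω hω q F _ M (hM _ (Metric.mem_ball_self hδ))⟩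
  obtain ⟨M1, hM1⟩ := hbd 1 (by simp)
  obtain ⟨M2, hM2⟩ := hbd (-1) (by simp)
  set k := 2 * Real.pi / p.ω with hk
  have hk0 : 0 < k := by positivity
  have hrel : ∀ (σ : ℝ) (hσ : |σ| = 1) (q : ℤ), ‖chargeProj p.ω q F z‖
      = Real.exp (q * k * (σ * ε)) * ‖chargeProj p.ω q F (fun v => z v + (σ * ε : ℝ) * Complex.I)‖ := by
    intro σ hσ q
    rw [chargeProj_add_const p hω col g X F hF q z _ hz (hmem σ hσ), norm_mul, ← mul_assoc, Complex.norm_exp,
      ← Real.exp_add]
    have h1 : (Complex.I * q * ((2 * Real.pi / p.ω : ℝ) : ℂ) * (((σ * ε : ℝ) : ℂ) * Complex.I)).re = -(q * k * (σ * ε)) := by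
      have : Complex.I * q * ((2 * Real.pi / p.ω : ℝ) : ℂ) * (((σ * ε : ℝ) : ℂ) * Complex.I)
          = ((-(q * k * (σ * ε)) : ℝ) : ℂ) := by
        have hI : Complex.I * Complex.I = -1 := Complex.I_mul_I
        rw [← hk]
        push_cast
        linear_combination ((q : ℂ) * (k : ℂ) * ((σ : ℂ) * (ε : ℂ))) * hI
      rw [this, Complex.ofReal_re]
    rw [h1, add_neg_cancel, Real.exp_zero, one_mul]
  refine ⟨max M1 M2, Real.exp (-(k * ε)), (Real.exp_pos _).le, by
    rw [Real.exp_lt_one_iff]; exact neg_lt_zero.2 (by positivity), fun q => ?_⟩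
  rw [← Real.exp_nat_mul, mul_comm (max M1 M2)]
  rcases le_total 0 q with hq | hq
  · rw [hrel (-1) (by simp) q]
    have h2 : ((q.natAbs : ℕ) : ℝ) = q := by
      rw [Nat.cast_natAbs, abs_of_nonneg hq]
    rw [h2]
    have h3 : (q : ℝ) * k * (-1 * ε) = q * -(k * ε) := by ring
    rw [h3]
    gcongr
    exact (hM2 q).trans (le_max_right _ _)
  · rw [hrel 1 (by simp) q]
    have h2 : ((q.natAbs : ℕ) : ℝ) = -q := by
      rw [Nat.cast_natAbs, abs_of_nonpos hq]; push_cast; ring
    rw [h2]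
    have h3 : (q : ℝ) * k * (1 * ε) = -q * -(k * ε) := by ring
    rw [h3]
    gcongr
    exact (hM1 q).trans (le_max_left _ _)

/-- Fourier inversion in the constant mode (last lines of the proof of Lemma 4.6). -/
theorem charge_inversion (p : Par) (hω : 0 < p.ω) (col : ℕ) (g : Grid G) (X : Finset g.I) (F : Fn G)
    (hF : LocalFn p col g X F) (z : G.V → ℂ) (hz : z ∈ strip p.h0 g X) : HasSum (fun q : ℤ => chargeProj p.ω q F z) (F z) := by
  have : Fact (0 < p.ω) := ⟨hω⟩
  have hper := line_periodic p col g X F hF hz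
  let Φ : C(AddCircle p.ω, ℂ) := ⟨hper.lift, continuous_coinduced_dom.mpr (continuous_line hF.hol hz)⟩
  have hΦ : ∀ t : ℝ, Φ (t : AddCircle p.ω) = F fun v => z v + (t : ℂ) := fun t => hper.lift_coe t
  have hcoef : ∀ q : ℤ, fourierCoeff Φ q = chargeProj p.ω q F z := by
    intro q
    rw [fourierCoeff_eq_intervalIntegral _ q 0, zero_add, chargeProj_eq, Complex.real_smul]
    congr 1
    refine intervalIntegral.integral_congr fun t _ => ?_
    simp only [smul_eq_mul]
    rw [hΦ, fourier_coe_apply]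
    congr 1
    unfold chK
    congr 1
    have hω' : (p.ω : ℂ) ≠ 0 := by exact_mod_cast hω.ne'
    push_cast
    field_simp
  have hsum : Summable (fourierCoeff Φ) := by
    obtain ⟨M, r, hr0, hr1, hb⟩ := chargeProj_decay p hω col g X F hF z hz
    refine Summable.of_norm_bounded (summable_geometric_natAbs M r hr0 hr1) fun q => ?_
    rw [hcoef]
    exact hb q
  have key := has_pointwise_sum_fourier_series_of_summable hsum 0
  have h0 : Φ (0 : AddCircle p.ω) = F z := by
    have := hΦ 0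
    simpa using this
  rw [h0] at key
  simpa [fourier_eval_zero, hcoef] using key

end

end Claimed.Agent.R285.Hol
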