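import Claimed.Agent.R285.Hol.Tn

/-!
# ROW 285, package PK-HOL, file 5: sizes of the retained singletons `e_B^0`, `c_B^α`   (owner helper278)
-/

set_option autoImplicit false

namespace Claimed.Agent.R285.Hol

open scoped BigOperators ENNReal NNReal
open MeasureTheory ProbabilityTheory
open Claimed.Agent.R285.RG

noncomputable section

variable {G : Geom}

/-! ## regulators are `≥ 1` -/

theorem gE_nonneg (D : Finset G.V) (φ : G.V → ℝ) : 0 ≤ gE G D φ := by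
  unfold gE
  positivity

theorem gE_mono {D D' : Finset G.V} (h : D ⊆ D') (φ : G.V → ℝ) : gE G D φ ≤ gE G D' φ := by
  unfold gE
  gcongr

theorem PE_nonneg (m : ℕ) (D : Finset G.V) (φ : G.V → ℝ) : 0 ≤ PE G m D φ := by
  unfold PE
  refine mul_nonneg (Nat.cast_nonneg _) (Finset.sum_nonneg fun v _ => Finset.sum_nonneg fun e _ => ?_)
  split_ifs
  · exact le_rfl
  · positivity

theorem TE_nonneg (g : Grid G) (Y : Finset g.I) (φ : G.V → ℝ) : 0 ≤ TE g Y φ := by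
  unfold TE
  positivity

theorem gE_le_U (g : Grid G) {δ : ℝ} (hδ : 0 ≤ δ) (X : Finset g.I) (φ : G.V → ℝ) : gE G (g.Dm X) φ ≤ U g δ X φ := by
  unfold U
  have h1 := PE_nonneg g.m (g.Dm X) φ
  have h2 := TE_nonneg g (g.collar X) φ
  have h3 : 0 ≤ δ * PE G g.m (g.Dm X) φ := mul_nonneg hδ h1
  linarith

theorem U_nonneg (g : Grid G) {δ : ℝ} (hδ : 0 ≤ δ) (X : Finset g.I) (φ : G.V → ℝ) : 0 ≤ U g δ X φ :=
  (gE_nonneg _ φ).trans (gE_le_U g hδ X φ)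

theorem exp_le_Wt (g : Grid G) (δ κ : ℝ) (V : Extra g) (X : Finset g.I) (φ : G.V → ℝ) :
    Real.exp (κ * U g δ X φ) ≤ Wt g δ κ V X φ := by
  unfold Wt
  exact Real.exp_le_exp.2 (le_add_of_nonneg_right (V.nonneg X φ))

theorem one_le_Wt (g : Grid G) {δ κ : ℝ} (hδ : 0 ≤ δ) (hκ : 0 ≤ κ) (V : Extra g) (X : Finset g.I) (φ : G.V → ℝ) :
    1 ≤ Wt g δ κ V X φ :=
  (Real.one_le_exp (mul_nonneg hκ (U_nonneg g hδ X φ))).trans (exp_le_Wt g δ κ V X φ)

/-! ## blocks -/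

theorem idist1_self (g : Grid G) (a : Fin g.n) : g.idist1 a a = 0 := by
  unfold Grid.idist1
  cases G.bc <;> simp

theorem idist_self (g : Grid G) (a : g.I) : g.idist a a = 0 := by
  simp [Grid.idist, idist1_self]

theorem subset_collar (g : Grid G) (X : Finset g.I) : X ⊆ g.collar X := by
  classical
  intro a ha
  simp only [Grid.collar, Finset.mem_filter, Finset.mem_univ, true_and]
  exact ⟨a, ha, by rw [idist_self]; exact Nat.zero_le _⟩

theorem sites_subset_Dm (g : Grid G) (X : Finset g.I) : g.sites X ⊆ g.Dm X := sites_mono g (subset_collar g X)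

theorem card_sites_singleton_le (g : Grid G) (hg : g.Ok) (B : g.I) : (g.sites {B}).card ≤ 4 * g.m ^ 2 := by
  have h1 : g.sites {B} = (Finset.univ.filter fun i => g.blk1 i = B.1) ×ˢ (Finset.univ.filter fun i => g.blk1 i = B.2) := by
    ext v
    simp only [Grid.sites, Grid.blk, Finset.mem_filter, Finset.mem_univ, true_and, Finset.mem_singleton, Finset.mem_product]
    exact Prod.ext_iff
  rw [h1, Finset.card_product]
  have h2 := (hg.size B.1).2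
  have h3 := (hg.size B.2).2
  calc _ ≤ (2 * g.m) * (2 * g.m) := Nat.mul_le_mul h2.le h3.le
    _ = 4 * g.m ^ 2 := by ring

theorem coe_nnnorm_le_ofReal {W : Type} [SeminormedAddGroup W] {x : W} {c : ℝ} (h : ‖x‖ ≤ c) : (‖x‖₊ : ℝ≥0∞) ≤ ENNReal.ofReal c := by
  rw [← enorm_eq_nnnorm, ← ofReal_norm]
  exact ENNReal.ofReal_le_ofReal h

/-! ## `c_B^α` -/

theorem norm_cos_le (w : ℂ) : ‖Complex.cos w‖ ≤ Real.exp |w.im| := by
  rw [Complex.cos, norm_div]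
  have h1 : ‖Complex.exp (w * Complex.I) + Complex.exp (-w * Complex.I)‖ ≤ Real.exp |w.im| + Real.exp |w.im| := by
    refine (norm_add_le _ _).trans (add_le_add ?_ ?_)
    · rw [Complex.norm_exp]
      apply Real.exp_le_exp.2
      simp only [Complex.mul_re, Complex.I_re, Complex.I_im, mul_zero, mul_one, zero_sub]
      exact neg_le_abs _
    · rw [Complex.norm_exp]
      apply Real.exp_le_exp.2
      simp only [Complex.mul_re, Complex.I_re, Complex.I_im, mul_zero, mul_one, zero_sub, Complex.neg_im, neg_neg]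
      exact le_abs_self _
  have h2 : ‖(2 : ℂ)‖ = 2 := by simp
  rw [h2]
  linarith

/-- the retained singleton `c_B^α` -/
theorem cB_size (p : Par) (hδ : 0 ≤ p.δ) (hκ : 0 ≤ p.κ) (α : ℝ) (g : Grid G) (hg : g.Ok) (V : Extra g) (B : g.I) :
    fnSize p g V {B} (cBC g α B) ≤ 4 * ENNReal.ofReal (Real.exp (|α| * p.h0)) := by
  rw [fnSize_le_iff]
  intro φ f hf
  have hm : (0 : ℝ) < g.m := by exact_mod_cast hg.pos
  have h1 : ∀ x ∈ g.sites {B}, ‖Complex.cos (α * (toC φ + f) x)‖ ≤ Real.exp (|α| * p.h0) := by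
    intro x hx
    refine (norm_cos_le _).trans (Real.exp_le_exp.2 ?_)
    have h2 : ((α : ℂ) * (toC φ + f) x).im = α * (f x).im := by simp [toC]
    rw [h2, abs_mul]
    gcongr
    have h3 : ‖f x‖₊ ≤ tnorm g {B} f := (tnorm_spec g {B} f x (sites_subset_Dm g _ hx)).1
    have h4 : ‖f x‖ ≤ p.h0 := by exact_mod_cast h3.trans hf.le
    exact (Complex.abs_im_le_norm _).trans h4
  have h5 : ‖cBC g α B (toC φ + f)‖ ≤ 4 * Real.exp (|α| * p.h0) := by
    unfold cBC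
    rw [norm_mul, Complex.norm_real, Real.norm_of_nonneg (by positivity)]
    have h6 : ‖∑ x ∈ g.sites {B}, Complex.cos (α * (toC φ + f) x)‖ ≤ (4 * (g.m : ℝ) ^ 2) * Real.exp (|α| * p.h0) := by
      refine (norm_sum_le_of_le _ h1).trans ?_
      rw [Finset.sum_const, nsmul_eq_mul]
      gcongr
      exact_mod_cast card_sites_singleton_le g hg B
    calc ((g.m : ℝ) ^ 2)⁻¹ * ‖∑ x ∈ g.sites {B}, Complex.cos (α * (toC φ + f) x)‖
        ≤ ((g.m : ℝ) ^ 2)⁻¹ * ((4 * (g.m : ℝ) ^ 2) * Real.exp (|α| * p.h0)) := by gcongr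
      _ = 4 * Real.exp (|α| * p.h0) := by field_simp
  have h7 : (1 : ℝ≥0∞) ≤ ENNReal.ofReal (Wt g p.δ p.κ V {B} φ) := by
    rw [← ENNReal.ofReal_one]
    exact ENNReal.ofReal_le_ofReal (one_le_Wt g hδ hκ V _ φ)
  calc (‖cBC g α B (toC φ + f)‖₊ : ℝ≥0∞) ≤ ENNReal.ofReal (4 * Real.exp (|α| * p.h0)) := coe_nnnorm_le_ofReal h5
    _ = 4 * ENNReal.ofReal (Real.exp (|α| * p.h0)) := by
        rw [ENNReal.ofReal_mul (by norm_num)]; norm_num
    _ ≤ 4 * ENNReal.ofReal (Real.exp (|α| * p.h0)) * ENNReal.ofReal (Wt g p.δ p.κ V {B} φ) :=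
        le_mul_of_one_le_right zero_le h7

/-! ## `e_B^0` -/

theorem norm_dif_le (g : Grid G) (hg : g.Ok) (X : Finset g.I) (f : G.V → ℂ) {h0 : ℝ≥0} (hf : tnorm g X f < h0) (v : G.V)
    (hv : v ∈ g.Dm X) (e : Fin 4) : ‖dif (dir e) (G.lift f) (G.ι v)‖ ≤ h0 / g.m := by
  have hm : (0 : ℝ) < g.m := by exact_mod_cast hg.pos
  have h1 := (tnorm_spec g X f v hv).2.1 (fun _ => e)
  rw [difs_one] at h1
  have h2 : (g.m : ℝ) * ‖dif (dir e) (G.lift f) (G.ι v)‖ ≤ h0 := by exact_mod_cast h1.trans hf.le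
  rw [le_div_iff₀ hm]
  linarith

theorem norm_eBC_le (g : Grid G) (hg : g.Ok) (B : g.I) (φ : G.V → ℝ) (f : G.V → ℂ) {h0 : ℝ≥0} (hf : tnorm g {B} f < h0) :
    ‖eBC g B (toC φ + f)‖ ≤ 2 * gE G (g.sites {B}) φ + 16 * (h0 : ℝ) ^ 2 := by
  have hm : (0 : ℝ) < g.m := by exact_mod_cast hg.pos
  have hterm : ∀ v ∈ g.sites {B}, ∀ e : Fin 4, ‖dif (dir e) (G.lift (toC φ + f)) (G.ι v) ^ 2‖
      ≤ 2 * dif (dir e) (G.lift φ) (G.ι v) ^ 2 + 2 * ((h0 : ℝ) / g.m) ^ 2 := by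
    intro v hv e
    have hsplit : dif (dir e) (G.lift (toC φ + f)) (G.ι v)
        = ((dif (dir e) (G.lift φ) (G.ι v) : ℝ) : ℂ) + dif (dir e) (G.lift f) (G.ι v) := by
      simp only [dif, Geom.lift, toC, Pi.add_apply]
      push_cast
      ring
    have hb := norm_dif_le g hg {B} f hf v (sites_subset_Dm g _ hv) e
    have h1 : ‖dif (dir e) (G.lift (toC φ + f)) (G.ι v)‖ ≤ |dif (dir e) (G.lift φ) (G.ι v)| + (h0 : ℝ) / g.m := by
      rw [hsplit]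
      refine (norm_add_le _ _).trans (add_le_add ?_ hb)
      rw [Complex.norm_real, Real.norm_eq_abs]
    rw [norm_pow]
    have h2 : 0 ≤ (h0 : ℝ) / g.m := by positivity
    calc ‖dif (dir e) (G.lift (toC φ + f)) (G.ι v)‖ ^ 2 ≤ (|dif (dir e) (G.lift φ) (G.ι v)| + (h0 : ℝ) / g.m) ^ 2 := by
          gcongr
      _ ≤ 2 * |dif (dir e) (G.lift φ) (G.ι v)| ^ 2 + 2 * ((h0 : ℝ) / g.m) ^ 2 := by
          nlinarith [sq_nonneg (|dif (dir e) (G.lift φ) (G.ι v)| - (h0 : ℝ) / g.m)]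
      _ = _ := by rw [sq_abs]
  unfold eBC
  rw [norm_mul]
  have h12 : ‖(1 / 2 : ℂ)‖ = 1 / 2 := by simp
  rw [h12]
  have hsum : ‖∑ v ∈ g.sites {B}, ∑ e : Fin 4, dif (dir e) (G.lift (toC φ + f)) (G.ι v) ^ 2‖
      ≤ ∑ v ∈ g.sites {B}, ∑ e : Fin 4, (2 * dif (dir e) (G.lift φ) (G.ι v) ^ 2 + 2 * ((h0 : ℝ) / g.m) ^ 2) :=
    norm_sum_le_of_le _ fun v hv => norm_sum_le_of_le _ fun e _ => hterm v hv e
  have hcard : ((g.sites {B}).card : ℝ) ≤ 4 * (g.m : ℝ) ^ 2 := by exact_mod_cast card_sites_singleton_le g hg B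
  have heq : ∑ v ∈ g.sites {B}, ∑ e : Fin 4, (2 * dif (dir e) (G.lift φ) (G.ι v) ^ 2 + 2 * ((h0 : ℝ) / g.m) ^ 2)
      = 4 * gE G (g.sites {B}) φ + ((g.sites {B}).card : ℝ) * (8 * ((h0 : ℝ) / g.m) ^ 2) := by
    unfold gE
    simp only [Finset.sum_add_distrib, Finset.sum_const, Finset.card_univ, Fintype.card_fin, nsmul_eq_mul, ← Finset.mul_sum]
    push_cast
    ring
  have hlast : ((g.sites {B}).card : ℝ) * (8 * ((h0 : ℝ) / g.m) ^ 2) ≤ 32 * (h0 : ℝ) ^ 2 := by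
    calc ((g.sites {B}).card : ℝ) * (8 * ((h0 : ℝ) / g.m) ^ 2) ≤ (4 * (g.m : ℝ) ^ 2) * (8 * ((h0 : ℝ) / g.m) ^ 2) := by gcongr
      _ = 32 * (h0 : ℝ) ^ 2 := by field_simp; ring
  rw [heq] at hsum
  linarith

/-- the retained singleton `e_B^0`: uniform local bound (proof of P4.8, "For `P = e_B/2` ..") -/
theorem eB_size (δ κ : ℝ) (h0 : ℝ≥0) (hδ : 0 < δ) (hκ : 0 < κ) : ∃ C : ℝ≥0, ∀ p : Par, p.δ = δ → p.κ = κ → p.h0 = h0 →
    ∀ (G : Geom) (g : Grid G), g.Ok → ∀ (V : Extra g) (B : g.I), fnSize p g V {B} (eBC g B) ≤ C := by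
  refine ⟨Real.toNNReal (2 / κ + 16 * (h0 : ℝ) ^ 2), ?_⟩
  rintro p rfl rfl rfl G g hg V B
  rw [fnSize_le_iff]
  intro φ f hf
  have h1 := norm_eBC_le g hg B φ f hf
  have h2 : gE G (g.sites {B}) φ ≤ U g p.δ {B} φ := (gE_mono (sites_subset_Dm g _) φ).trans (gE_le_U g hδ.le _ φ)
  have h3 : p.κ * U g p.δ {B} φ ≤ Wt g p.δ p.κ V {B} φ := by
    have := Real.add_one_le_exp (p.κ * U g p.δ {B} φ)
    have h4 := exp_le_Wt g p.δ p.κ V {B} φ
    linarith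
  have h5 := one_le_Wt g hδ.le hκ.le V {B} φ
  have h6 : 2 * U g p.δ {B} φ ≤ 2 / p.κ * Wt g p.δ p.κ V {B} φ := by
    rw [div_mul_eq_mul_div, le_div_iff₀ hκ]
    linarith
  have h7 : ‖eBC g B (toC φ + f)‖ ≤ (2 / p.κ + 16 * (p.h0 : ℝ) ^ 2) * Wt g p.δ p.κ V {B} φ := by
    have h8 : 16 * (p.h0 : ℝ) ^ 2 ≤ 16 * (p.h0 : ℝ) ^ 2 * Wt g p.δ p.κ V {B} φ := le_mul_of_one_le_right (by positivity) h5
    linarith
  refine (coe_nnnorm_le_ofReal h7).trans ?_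
  rw [ENNReal.ofReal_mul (by positivity)]
  exact le_rfl

end

end Claimed.Agent.R285.Hol
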