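import Claimed.Agent.R285.Base.RG

/-!
# ROW 285, package PK-HOL, file 3: Cameron-Martin for degenerate Gaussian measures   (owner helper278)
`gauss_shift` (identity of measures), with its consequences for `∫⁻` and `∫`.
-/

set_option autoImplicit false

namespace Claimed.Agent.R285.Hol

open scoped BigOperators ENNReal NNReal
open MeasureTheory ProbabilityTheory
open Claimed.Agent.R285.RG

noncomputable section

section std

variable {E : Type} [NormedAddCommGroup E] [InnerProductSpace ℝ E] [FiniteDimensional ℝ E]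
  [MeasurableSpace E] [BorelSpace E]

theorem std_map_inner (v : E) :
    (stdGaussian E).map (fun z => inner ℝ v z) = gaussianReal 0 (‖v‖ ^ 2).toNNReal := by
  have h := IsGaussian.map_eq_gaussianReal (μ := stdGaussian E) (innerSL ℝ v)
  rw [integral_strongDual_stdGaussian, variance_dual_stdGaussian, innerSL_apply_norm] at h
  exact h

theorem std_exp_integrable (v : E) : Integrable (fun z => Real.exp (inner ℝ v z)) (stdGaussian E) := by
  have h := integrable_exp_mul_gaussianReal (μ := 0) (v := (‖v‖ ^ 2).toNNReal) 1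
  rw [← std_map_inner v, integrable_map_measure (by fun_prop) (by fun_prop)] at h
  simpa [Function.comp_def] using h

theorem std_cmgf (c ξ : E) :
    ∫ z, Complex.exp ((inner ℝ c z : ℝ) + (inner ℝ z ξ : ℝ) * Complex.I) ∂(stdGaussian E) =
      Complex.exp (((‖c‖ ^ 2 - ‖ξ‖ ^ 2) / 2 : ℝ) + (inner ℝ c ξ : ℝ) * Complex.I) := by
  rw [stdGaussian, integral_map (Measurable.aemeasurable (by fun_prop))
    (Measurable.aestronglyMeasurable (by fun_prop))]
  have h1 : ∀ x : Fin (Module.finrank ℝ E) → ℝ,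
      Complex.exp ((inner ℝ c (∑ i, x i • stdOrthonormalBasis ℝ E i) : ℝ) +
        (inner ℝ (∑ i, x i • stdOrthonormalBasis ℝ E i) ξ : ℝ) * Complex.I) =
      ∏ i, Complex.exp ((((inner ℝ c (stdOrthonormalBasis ℝ E i) : ℝ) : ℂ) +
        (inner ℝ (stdOrthonormalBasis ℝ E i) ξ : ℝ) * Complex.I) * (x i : ℝ)) := by
    intro x
    rw [← Complex.exp_sum]
    congr 1
    simp only [inner_sum, sum_inner, inner_smul_left, inner_smul_right, Complex.ofReal_sum, Finset.sum_mul,
      ← Finset.sum_add_distrib]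
    refine Finset.sum_congr rfl fun i _ => ?_
    simp
    ring
  simp_rw [h1]
  rw [integral_fintype_prod_eq_prod (f := fun i (x : ℝ) => Complex.exp ((((inner ℝ c (stdOrthonormalBasis ℝ E i) : ℝ) : ℂ) +
        (inner ℝ (stdOrthonormalBasis ℝ E i) ξ : ℝ) * Complex.I) * (x : ℝ)))]
  have h2 : ∀ w : ℂ, ∫ x : ℝ, Complex.exp (w * (x : ℝ)) ∂(gaussianReal 0 1) = Complex.exp (w ^ 2 / 2) := by
    intro w
    have := complexMGF_id_gaussianReal (μ := 0) (v := 1) w
    simpa [complexMGF] using this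
  simp_rw [h2]
  rw [← Complex.exp_sum]
  congr 1
  rw [← (stdOrthonormalBasis ℝ E).sum_sq_inner_right c, ← (stdOrthonormalBasis ℝ E).sum_sq_inner_right ξ,
    ← (stdOrthonormalBasis ℝ E).sum_inner_mul_inner c ξ]
  rw [← Finset.sum_sub_distrib, Finset.sum_div]
  push_cast
  rw [Finset.sum_mul, ← Finset.sum_add_distrib]
  refine Finset.sum_congr rfl fun i _ => ?_
  rw [real_inner_comm c]
  have hI : Complex.I ^ 2 = -1 := Complex.I_sq
  linear_combination ((inner ℝ ((stdOrthonormalBasis ℝ E) i) ξ : ℝ) : ℂ) ^ 2 / 2 * hI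

/-- Cameron-Martin for the standard Gaussian measure -/
theorem std_shift (h : E) :
    (stdGaussian E).map (fun g => h + g) =
      (stdGaussian E).withDensity fun z => ENNReal.ofReal (Real.exp (inner ℝ h z - ‖h‖ ^ 2 / 2)) := by
  have hint : Integrable (fun z => Real.exp (inner ℝ h z - ‖h‖ ^ 2 / 2)) (stdGaussian E) := by
    simp_rw [Real.exp_sub]
    exact (std_exp_integrable h).div_const _
  have hmeas : Measurable fun z : E => Real.exp (inner ℝ h z - ‖h‖ ^ 2 / 2) := by fun_prop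
  have : IsFiniteMeasure ((stdGaussian E).withDensity fun z => ENNReal.ofReal (Real.exp (inner ℝ h z - ‖h‖ ^ 2 / 2))) :=
    isFiniteMeasure_withDensity_ofReal hint.2
  apply Measure.ext_of_charFun
  ext ξ
  rw [charFun_map_const_add, charFun_stdGaussian, charFun_apply,
    integral_withDensity_eq_integral_toReal_smul hmeas.ennreal_ofReal
      (Filter.Eventually.of_forall fun _ => ENNReal.ofReal_lt_top)]
  have h' : ∀ z : E, (ENNReal.ofReal (Real.exp (inner ℝ h z - ‖h‖ ^ 2 / 2))).toReal • Complex.exp ((inner ℝ z ξ : ℝ) * Complex.I) =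
      Complex.exp ((-(‖h‖ ^ 2 / 2) : ℝ)) *
        Complex.exp ((inner ℝ h z : ℝ) + (inner ℝ z ξ : ℝ) * Complex.I) := by
    intro z
    rw [ENNReal.toReal_ofReal (Real.exp_pos _).le, Complex.real_smul, Complex.ofReal_exp, ← Complex.exp_add,
      ← Complex.exp_add]
    congr 1
    push_cast
    ring
  simp_rw [h']
  rw [integral_const_mul, std_cmgf, ← Complex.exp_add, ← Complex.exp_add]
  congr 1
  push_cast
  ring

end std

theorem map_withDensity_comp {α β : Type} [MeasurableSpace α] [MeasurableSpace β] (μ : Measure α) {f : α → β}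
    (hf : Measurable f) {ρ : β → ℝ≥0∞} (hρ : Measurable ρ) :
    (μ.withDensity (ρ ∘ f)).map f = (μ.map f).withDensity ρ := by
  ext s hs
  rw [Measure.map_apply hf hs, withDensity_apply _ (hf hs), withDensity_apply _ hs, setLIntegral_map hs hρ hf]
  rfl

section mv

variable {ι : Type} [Fintype ι] [DecidableEq ι]

open scoped MatrixOrder in
/-- Cameron-Martin for `multivariateGaussian 0 S` -/
theorem mv_shift (S : Matrix ι ι ℝ) (hS : S.PosSemidef) (η : EuclideanSpace ℝ ι) :
    (multivariateGaussian 0 S).map (fun x => x + Matrix.toEuclideanCLM (𝕜 := ℝ) S η)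
      = (multivariateGaussian 0 S).withDensity fun x =>
          ENNReal.ofReal (Real.exp (inner ℝ η x - inner ℝ η (Matrix.toEuclideanCLM (𝕜 := ℝ) S η) / 2)) := by
  set A : EuclideanSpace ℝ ι →L[ℝ] EuclideanSpace ℝ ι := Matrix.toEuclideanCLM (𝕜 := ℝ) (CFC.sqrt S) with hA
  have hAA : ∀ x, A (A x) = Matrix.toEuclideanCLM (𝕜 := ℝ) S x := by
    intro x
    rw [← ContinuousLinearMap.comp_apply, ← ContinuousLinearMap.mul_def, hA, ← map_mul,
      CFC.sqrt_mul_sqrt_self _ hS.nonneg]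
  have hsa : IsSelfAdjoint A := (CFC.sqrt_nonneg S).isSelfAdjoint.map _
  have hsym : ∀ x y, inner ℝ (A x) y = inner ℝ x (A y) := by
    intro x y
    rw [← ContinuousLinearMap.adjoint_inner_right, hsa.adjoint_eq]
  set f : EuclideanSpace ℝ ι → EuclideanSpace ℝ ι := fun x => 0 + A x with hf
  have hfm : Measurable f := by rw [hf]; fun_prop
  set ρ : EuclideanSpace ℝ ι → ℝ≥0∞ := fun x =>
    ENNReal.ofReal (Real.exp (inner ℝ η x - inner ℝ η (Matrix.toEuclideanCLM (𝕜 := ℝ) S η) / 2)) with hρ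
  have hρm : Measurable ρ := by rw [hρ]; fun_prop
  have h1 : multivariateGaussian 0 S = (stdGaussian (EuclideanSpace ℝ ι)).map f := rfl
  rw [h1, ← map_withDensity_comp _ hfm hρm, Measure.map_map (by fun_prop) hfm]
  have h2 : (fun x => x + Matrix.toEuclideanCLM (𝕜 := ℝ) S η) ∘ f = f ∘ fun g => A η + g := by
    ext1 x
    simp only [Function.comp_apply, hf, map_add, hAA]
    abel
  rw [h2, ← Measure.map_map hfm (by fun_prop), std_shift]
  congr 2
  ext1 z
  simp only [Function.comp_apply, hρ, hf, zero_add]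
  rw [hsym, ← real_inner_self_eq_norm_sq, hsym, hAA]

end mv

variable {G : Geom}

theorem gauss_eq (Γ : Matrix G.V G.V ℝ) :
    gauss G Γ = (multivariateGaussian 0 Γ).map (MeasurableEquiv.toLp 2 (G.V → ℝ)).symm := rfl

instance gauss_isProbabilityMeasure (Γ : Matrix G.V G.V ℝ) : IsProbabilityMeasure (gauss G Γ) := by
  rw [gauss_eq]
  exact Measure.isProbabilityMeasure_map (MeasurableEquiv.measurable _).aemeasurable

/-- Cameron-Martin for a degenerate Gaussian, real shift `Γ η`, as an identity of measures -/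
theorem gauss_shift (Γ : Matrix G.V G.V ℝ) (hΓ : Γ.PosSemidef) (η : G.V → ℝ) :
    (gauss G Γ).map (fun ζ => ζ + Γ.mulVec η)
      = (gauss G Γ).withDensity fun ζ => ENNReal.ofReal (Real.exp (η ⬝ᵥ ζ - (η ⬝ᵥ Γ.mulVec η) / 2)) := by
  set e := (MeasurableEquiv.toLp 2 (G.V → ℝ)).symm with he
  have hem : Measurable e := e.measurable
  set ρ : (G.V → ℝ) → ℝ≥0∞ := fun ζ => ENNReal.ofReal (Real.exp (η ⬝ᵥ ζ - (η ⬝ᵥ Γ.mulVec η) / 2)) with hρ
  have hρm : Measurable ρ := by
    rw [hρ]
    refine ENNReal.measurable_ofReal.comp (Real.measurable_exp.comp ?_)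
    have : Continuous fun ζ : G.V → ℝ => η ⬝ᵥ ζ - (η ⬝ᵥ Γ.mulVec η) / 2 := by
      unfold dotProduct; fun_prop
    exact this.measurable
  rw [gauss_eq, ← map_withDensity_comp _ hem hρm, Measure.map_map (by fun_prop) hem]
  have h2 : (fun ζ => ζ + Γ.mulVec η) ∘ e
      = e ∘ fun x => x + Matrix.toEuclideanCLM (𝕜 := ℝ) Γ (WithLp.toLp 2 η) := by
    ext1 x
    rfl
  rw [h2, ← Measure.map_map hem (by fun_prop), mv_shift Γ hΓ]
  congr 2
  ext1 x
  simp only [Function.comp_apply, hρ]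
  congr 3
  · rw [EuclideanSpace.inner_eq_star_dotProduct, dotProduct_comm]
    rfl
  · rw [Matrix.inner_toEuclideanCLM]

theorem dot_continuous (η : G.V → ℝ) : Continuous fun ζ : G.V → ℝ => η ⬝ᵥ ζ := by
  unfold dotProduct; fun_prop

theorem cm_density_measurable (Γ : Matrix G.V G.V ℝ) (η : G.V → ℝ) :
    Measurable fun ζ : G.V → ℝ => ENNReal.ofReal (Real.exp (η ⬝ᵥ ζ - (η ⬝ᵥ Γ.mulVec η) / 2)) :=
  ENNReal.measurable_ofReal.comp (Real.measurable_exp.comp ((dot_continuous η).sub continuous_const).measurable)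

/-- Cameron-Martin for `∫⁻` -/
theorem gauss_shift_lintegral (Γ : Matrix G.V G.V ℝ) (hΓ : Γ.PosSemidef) (η : G.V → ℝ) (f : (G.V → ℝ) → ℝ≥0∞)
    (hf : Measurable f) :
    ∫⁻ ζ, f (ζ + Γ.mulVec η) ∂(gauss G Γ)
      = ∫⁻ ζ, ENNReal.ofReal (Real.exp (η ⬝ᵥ ζ - (η ⬝ᵥ Γ.mulVec η) / 2)) * f ζ ∂(gauss G Γ) := by
  rw [← lintegral_map hf (measurable_add_const _), gauss_shift Γ hΓ,
    lintegral_withDensity_eq_lintegral_mul _ (cm_density_measurable Γ η) hf]
  rfl

/-- Cameron-Martin for Bochner integrals (no hypothesis on `f`) -/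
theorem gauss_shift_integral {W : Type} [NormedAddCommGroup W] [NormedSpace ℝ W] (Γ : Matrix G.V G.V ℝ) (hΓ : Γ.PosSemidef)
    (η : G.V → ℝ) (f : (G.V → ℝ) → W) :
    ∫ ζ, f (ζ + Γ.mulVec η) ∂(gauss G Γ)
      = ∫ ζ, Real.exp (η ⬝ᵥ ζ - (η ⬝ᵥ Γ.mulVec η) / 2) • f ζ ∂(gauss G Γ) := by
  rw [← (measurableEmbedding_addRight (Γ.mulVec η)).integral_map f, gauss_shift Γ hΓ,
    integral_withDensity_eq_integral_toReal_smul (cm_density_measurable Γ η)
      (Filter.Eventually.of_forall fun _ => ENNReal.ofReal_lt_top)]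
  simp_rw [ENNReal.toReal_ofReal (Real.exp_pos _).le]

end

end Claimed.Agent.R285.Hol
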