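import Mathlib

/-!
# ROW 285, package PK-HOL, file 2: holomorphic functions of finitely many variables   (owner helper278)
`hol_integral` (holomorphy of a locally dominated parameter integral, no hypothesis on derivatives) and `hol_fderiv`
(the derivative of a holomorphic function is holomorphic).  Mathlib only.
-/

set_option autoImplicit false

namespace Claimed.Agent.R285.Hol

open MeasureTheory Metric Filter Topology

noncomputable section

section general

variable {E W : Type} [NormedAddCommGroup E] [NormedSpace ℂ E] [NormedAddCommGroup W] [NormedSpace ℂ W]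

/-- the restriction to a complex line -/
theorem line_hasDerivAt {f : E → W} {z v : E} {t : ℂ} (hf : DifferentiableAt ℂ f (z + t • v)) :
    HasDerivAt (fun s : ℂ => f (z + s • v)) (fderiv ℂ f (z + t • v) v) t := by
  have h1 : HasDerivAt (fun s : ℂ => z + s • v) v t := by
    simpa using ((hasDerivAt_id t).smul_const v).const_add z
  exact hf.hasFDerivAt.comp_hasDerivAt t h1

theorem line_hasDerivAt_zero {f : E → W} {z v : E} (hf : DifferentiableAt ℂ f z) :
    HasDerivAt (fun s : ℂ => f (z + s • v)) (fderiv ℂ f z v) 0 := by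
  have := line_hasDerivAt (f := f) (z := z) (v := v) (t := 0) (by simpa using hf)
  simpa using this

/-- Cauchy estimate for the derivative, several variables -/
theorem norm_fderiv_le_of_ball {f : E → W} {z : E} {r C : ℝ} (hr : 0 < r) (hf : DifferentiableOn ℂ f (ball z r))
    (hC : ∀ x ∈ ball z r, ‖f x‖ ≤ C) : ‖fderiv ℂ f z‖ ≤ 2 * C / r := by
  have hC0 : 0 ≤ C := (norm_nonneg _).trans (hC z (mem_ball_self hr))
  refine ContinuousLinearMap.opNorm_le_bound _ (by positivity) fun v => ?_
  by_cases hv : v = 0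
  · simp [hv]
  have hv' : 0 < ‖v‖ := norm_pos_iff.2 hv
  set ρ := r / (2 * ‖v‖) with hρ
  have hρ0 : 0 < ρ := by positivity
  have hin : ∀ t ∈ closedBall (0 : ℂ) ρ, z + t • v ∈ ball z r := by
    intro t ht
    rw [mem_closedBall_zero_iff] at ht
    rw [mem_ball_iff_norm, add_sub_cancel_left, norm_smul]
    calc ‖t‖ * ‖v‖ ≤ ρ * ‖v‖ := by gcongr
      _ = r / 2 := by rw [hρ]; field_simp
      _ < r := by linarith
  have hd : DifferentiableOn ℂ (fun s : ℂ => f (z + s • v)) (closedBall 0 ρ) := fun t ht =>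
    (line_hasDerivAt ((hf _ (hin t ht)).differentiableAt
      (isOpen_ball.mem_nhds (hin t ht)))).differentiableAt.differentiableWithinAt
  have h1 := Complex.norm_deriv_le_of_forall_mem_sphere_norm_le hρ0 (hd.diffContOnCl_ball subset_rfl)
    (C := C) (fun t ht => hC _ (hin t (sphere_subset_closedBall ht)))
  have h2 : deriv (fun s : ℂ => f (z + s • v)) 0 = fderiv ℂ f z v :=
    (line_hasDerivAt_zero ((hf z (mem_ball_self hr)).differentiableAt (isOpen_ball.mem_nhds (mem_ball_self hr)))).deriv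
  rw [h2] at h1
  calc ‖fderiv ℂ f z v‖ ≤ C / ρ := h1
    _ = 2 * C / r * ‖v‖ := by rw [hρ]; field_simp

variable [FiniteDimensional ℂ E]

/-- a continuous linear map on a finite dimensional space, through its values on a basis -/
theorem clm_eq_sum_basis (L : E →L[ℂ] W) :
    L = ∑ i, (LinearMap.toContinuousLinearMap ((Module.finBasis ℂ E).coord i)).smulRight (L (Module.finBasis ℂ E i)) := by
  ext x
  have h1 : L x = ∑ i, ((Module.finBasis ℂ E).repr x) i • L ((Module.finBasis ℂ E) i) := by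
    conv_lhs => rw [← (Module.finBasis ℂ E).sum_repr x]
    rw [map_sum]
    exact Finset.sum_congr rfl fun i _ => map_smul _ _ _
  rw [h1]
  simp

theorem differentiableOn_clm_of_apply {H : Type} [NormedAddCommGroup H] [NormedSpace ℂ H] {f : H → E →L[ℂ] W} {s : Set H}
    (h : ∀ v, DifferentiableOn ℂ (fun x => f x v) s) : DifferentiableOn ℂ f s := by
  have h1 : f = fun x => ∑ i, (LinearMap.toContinuousLinearMap ((Module.finBasis ℂ E).coord i)).smulRight
      (f x (Module.finBasis ℂ E i)) := by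
    ext1 x; exact clm_eq_sum_basis (f x)
  rw [h1]
  refine DifferentiableOn.fun_sum fun i _ => ?_
  exact (ContinuousLinearMap.smulRightL ℂ E W
    (LinearMap.toContinuousLinearMap ((Module.finBasis ℂ E).coord i))).differentiable.comp_differentiableOn (h _)

theorem aestronglyMeasurable_clm_of_apply {Ω : Type} [MeasurableSpace Ω] {μ : Measure Ω} {f : Ω → E →L[ℂ] W}
    (h : ∀ v, AEStronglyMeasurable (fun x => f x v) μ) : AEStronglyMeasurable f μ := by
  have h1 : f = fun x => ∑ i, (LinearMap.toContinuousLinearMap ((Module.finBasis ℂ E).coord i)).smulRight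
      (f x (Module.finBasis ℂ E i)) := by
    ext1 x; exact clm_eq_sum_basis (f x)
  rw [h1]
  refine Finset.aestronglyMeasurable_fun_sum _ fun i _ => ?_
  exact (ContinuousLinearMap.smulRightL ℂ E W
    (LinearMap.toContinuousLinearMap ((Module.finBasis ℂ E).coord i))).continuous.comp_aestronglyMeasurable (h _)

omit [FiniteDimensional ℂ E] in
/-- measurability of a directional derivative in the parameter -/
theorem aestronglyMeasurable_fderiv_apply {Ω : Type} [MeasurableSpace Ω] {μ : Measure Ω} {U : Set E} (hU : IsOpen U)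
    {F : E → Ω → W} (hF : ∀ ω, DifferentiableOn ℂ (fun z => F z ω) U) (hm : ∀ z ∈ U, AEStronglyMeasurable (F z) μ)
    {z₀ : E} (hz₀ : z₀ ∈ U) (v : E) : AEStronglyMeasurable (fun ω => fderiv ℂ (fun z => F z ω) z₀ v) μ := by
  obtain ⟨δ, hδ, hball⟩ := Metric.isOpen_iff.1 hU z₀ hz₀
  set t : ℕ → ℂ := fun n => ((δ / (((n : ℝ) + 1) * (‖v‖ + 1)) : ℝ) : ℂ) with ht
  have ht0 : ∀ n, t n ≠ 0 := fun n => by
    rw [ht]; simp only [ne_eq, Complex.ofReal_eq_zero]; positivity
  have htn : ∀ n, ‖t n‖ = δ / (((n : ℝ) + 1) * (‖v‖ + 1)) := fun n => by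
    rw [ht]; simp only [Complex.norm_real, Real.norm_eq_abs]; rw [abs_of_pos (by positivity)]
  have htU : ∀ n, z₀ + t n • v ∈ U := fun n => by
    apply hball
    rw [mem_ball_iff_norm, add_sub_cancel_left, norm_smul, htn]
    have h1 : δ / (((n : ℝ) + 1) * (‖v‖ + 1)) * ‖v‖ = δ * (‖v‖ / (((n : ℝ) + 1) * (‖v‖ + 1))) := by ring
    rw [h1]
    have h2 : ‖v‖ / (((n : ℝ) + 1) * (‖v‖ + 1)) < 1 := by
      rw [div_lt_one (by positivity)]
      have : 0 ≤ (n : ℝ) * (‖v‖ + 1) := by positivity
      nlinarith [norm_nonneg v]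
    nlinarith
  have htlim : Tendsto t atTop (𝓝[≠] 0) := by
    rw [tendsto_nhdsWithin_iff]
    refine ⟨?_, Eventually.of_forall ht0⟩
    rw [tendsto_zero_iff_norm_tendsto_zero]
    simp_rw [htn]
    have h1 : Tendsto (fun n : ℕ => δ / (‖v‖ + 1) * (1 / ((n : ℝ) + 1))) atTop (𝓝 (δ / (‖v‖ + 1) * 0)) :=
      tendsto_one_div_add_atTop_nhds_zero_nat.const_mul _
    rw [mul_zero] at h1
    refine h1.congr fun n => ?_
    field_simp
  refine aestronglyMeasurable_of_tendsto_ae atTop
    (f := fun n ω => (t n)⁻¹ • (F (z₀ + t n • v) ω - F z₀ ω)) (fun n => ?_) (Eventually.of_forall fun ω => ?_)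
  · exact ((hm _ (htU n)).sub (hm _ hz₀)).const_smul _
  · have h1 := (line_hasDerivAt_zero (v := v) ((hF ω z₀ hz₀).differentiableAt (hU.mem_nhds hz₀))).tendsto_slope_zero
    have h2 := h1.comp htlim
    simpa [Function.comp_def] using h2

/-- GENERAL: holomorphy of a parameter integral: locally dominated almost everywhere, values in a Banach space -/
theorem hol_integral_ae [CompleteSpace W] {Ω : Type} [MeasurableSpace Ω] (μ : Measure Ω)
    (U : Set E) (hU : IsOpen U) (F : E → Ω → W) (hF : ∀ ω, DifferentiableOn ℂ (fun z => F z ω) U)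
    (hm : ∀ z ∈ U, AEStronglyMeasurable (F z) μ)
    (hb : ∀ z ∈ U, ∃ ε > 0, ∃ b : Ω → ℝ, Integrable b μ ∧ ∀ᵐ ω ∂μ, ∀ z' ∈ Metric.ball z ε, ‖F z' ω‖ ≤ b ω) :
    DifferentiableOn ℂ (fun z => ∫ ω, F z ω ∂μ) U := by
  intro z₀ hz₀
  obtain ⟨ε, hε, b, hbi, hbb⟩ := hb z₀ hz₀
  obtain ⟨δ, hδ, hball⟩ := Metric.isOpen_iff.1 hU z₀ hz₀
  set r := min ε δ with hr
  have hr0 : 0 < r := lt_min hε hδ
  have hsub : ∀ x ∈ ball z₀ (r / 2), ball x (r / 2) ⊆ ball z₀ r := by
    intro x hx y hy
    rw [mem_ball] at hx hy ⊢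
    calc dist y z₀ ≤ dist y x + dist x z₀ := dist_triangle _ _ _
      _ < r / 2 + r / 2 := add_lt_add hy hx
      _ = r := by ring
  have hrU : ball z₀ r ⊆ U := (ball_subset_ball (min_le_right _ _)).trans hball
  have hrε : ball z₀ r ⊆ ball z₀ ε := ball_subset_ball (min_le_left _ _)
  have hhalf : ball z₀ (r / 2) ⊆ ball z₀ r := ball_subset_ball (by linarith)
  have key := hasFDerivAt_integral_of_dominated_of_fderiv_le (𝕜 := ℂ) (μ := μ) (F := F)
    (F' := fun z ω => fderiv ℂ (fun z => F z ω) z) (x₀ := z₀) (bound := fun ω => 2 * b ω / (r / 2))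
    (s := ball z₀ (r / 2)) (ball_mem_nhds _ (by positivity))
    (Filter.eventually_of_mem (hU.mem_nhds hz₀) hm)
    (hbi.mono' (hm _ hz₀) (hbb.mono fun ω h => h _ (mem_ball_self hε)))
    (aestronglyMeasurable_clm_of_apply fun v => aestronglyMeasurable_fderiv_apply hU hF hm hz₀ v)
    (hbb.mono fun ω h x hx => norm_fderiv_le_of_ball (by positivity)
      ((hF ω).mono ((hsub x hx).trans hrU)) fun y hy => h y (hrε (hsub x hx hy)))
    ((hbi.const_mul 2).div_const _)
    (Eventually.of_forall fun ω x hx =>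
      ((hF ω x (hrU (hhalf hx))).differentiableAt (hU.mem_nhds (hrU (hhalf hx)))).hasFDerivAt)
  exact key.differentiableAt.differentiableWithinAt

/-- GENERAL: holomorphy of a parameter integral: locally dominated, values in a Banach space -/
theorem hol_integral_gen [CompleteSpace W] {Ω : Type} [MeasurableSpace Ω] (μ : Measure Ω)
    (U : Set E) (hU : IsOpen U) (F : E → Ω → W) (hF : ∀ ω, DifferentiableOn ℂ (fun z => F z ω) U)
    (hm : ∀ z ∈ U, AEStronglyMeasurable (F z) μ)
    (hb : ∀ z ∈ U, ∃ ε > 0, ∃ b : Ω → ℝ, Integrable b μ ∧ ∀ z' ∈ Metric.ball z ε, ∀ ω, ‖F z' ω‖ ≤ b ω) :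
    DifferentiableOn ℂ (fun z => ∫ ω, F z ω ∂μ) U := by
  refine hol_integral_ae μ U hU F hF hm fun z hz => ?_
  obtain ⟨ε, hε, b, hbi, hbb⟩ := hb z hz
  exact ⟨ε, hε, b, hbi, Eventually.of_forall fun ω z' hz' => hbb z' hz' ω⟩

/-- GENERAL: holomorphy of a parameter integral: locally dominated -/
theorem hol_integral {E Ω : Type} [NormedAddCommGroup E] [NormedSpace ℂ E] [FiniteDimensional ℂ E] [MeasurableSpace Ω] (μ : Measure Ω)
    (U : Set E) (hU : IsOpen U) (F : E → Ω → ℂ) (hF : ∀ ω, DifferentiableOn ℂ (fun z => F z ω) U)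
    (hm : ∀ z ∈ U, AEStronglyMeasurable (F z) μ)
    (hb : ∀ z ∈ U, ∃ ε > 0, ∃ b : Ω → ℝ, Integrable b μ ∧ ∀ z' ∈ Metric.ball z ε, ∀ ω, ‖F z' ω‖ ≤ b ω) :
    DifferentiableOn ℂ (fun z => ∫ ω, F z ω ∂μ) U :=
  hol_integral_gen μ U hU F hF hm hb

/-- GENERAL (Mathlib level): a holomorphic function of finitely many variables has a holomorphic derivative -/
theorem hol_fderiv {E W : Type} [NormedAddCommGroup E] [NormedSpace ℂ E] [FiniteDimensional ℂ E] [NormedAddCommGroup W] [NormedSpace ℂ W]
    [CompleteSpace W] (U : Set E) (hU : IsOpen U) (F : E → W) (hF : DifferentiableOn ℂ F U) : DifferentiableOn ℂ (fderiv ℂ F) U := by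
  have : ProperSpace E := FiniteDimensional.proper ℂ E
  refine differentiableOn_clm_of_apply fun v => ?_
  intro z₀ hz₀
  obtain ⟨R, hR, hball⟩ := Metric.isOpen_iff.1 hU z₀ hz₀
  have hKU : closedBall z₀ (R / 2) ⊆ U := (closedBall_subset_ball (by linarith)).trans hball
  obtain ⟨C, hC⟩ := (isCompact_closedBall z₀ (R / 2)).exists_bound_of_continuousOn (hF.continuousOn.mono hKU)
  set ρ := R / (4 * (‖v‖ + 1)) with hρ
  have hρ0 : 0 < ρ := by positivity
  have hin : ∀ z ∈ ball z₀ (R / 4), ∀ t ∈ closedBall (0 : ℂ) ρ, z + t • v ∈ closedBall z₀ (R / 2) := by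
    intro z hz t ht
    rw [mem_closedBall_zero_iff] at ht
    rw [mem_ball_iff_norm] at hz
    rw [mem_closedBall_iff_norm]
    have h1 : ‖t • v‖ ≤ R / 4 := by
      rw [norm_smul]
      calc ‖t‖ * ‖v‖ ≤ ρ * (‖v‖ + 1) := by gcongr; linarith
        _ = R / 4 := by rw [hρ]; field_simp
    calc ‖z + t • v - z₀‖ = ‖(z - z₀) + t • v‖ := by congr 1; abel
      _ ≤ ‖z - z₀‖ + ‖t • v‖ := norm_add_le _ _
      _ ≤ R / 2 := by linarith
  have hline : ∀ z : E, Continuous fun t : ℂ => z + t • v := fun z => by fun_prop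
  -- the Cauchy formula
  have hcauchy : ∀ z ∈ ball z₀ (R / 4), fderiv ℂ F z v = Complex.cderiv ρ (fun t : ℂ => F (z + t • v)) 0 := by
    intro z hz
    have hopen : IsOpen ((fun t : ℂ => z + t • v) ⁻¹' U) := hU.preimage (hline z)
    have hd : DifferentiableOn ℂ (fun t : ℂ => F (z + t • v)) ((fun t : ℂ => z + t • v) ⁻¹' U) := fun t ht =>
      (line_hasDerivAt ((hF _ ht).differentiableAt (hU.mem_nhds ht))).differentiableAt.differentiableWithinAt
    rw [Complex.cderiv_eq_deriv hopen hd hρ0 fun t ht => hKU (hin z hz t ht)]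
    have hzU : z ∈ U := hball (ball_subset_ball (by linarith) hz)
    exact (line_hasDerivAt_zero ((hF z hzU).differentiableAt (hU.mem_nhds hzU))).deriv.symm
  -- holomorphy of the Cauchy integral
  have hmain : DifferentiableOn ℂ (fun z => Complex.cderiv ρ (fun t : ℂ => F (z + t • v)) 0) (ball z₀ (R / 4)) := by
    unfold Complex.cderiv circleIntegral
    refine DifferentiableOn.const_smul ?_ _
    simp_rw [intervalIntegral.integral_of_le Real.two_pi_pos.le]
    refine hol_integral_gen _ _ isOpen_ball _ (fun θ => ?_) (fun z hz => ?_) (fun z hz => ?_)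
    · refine DifferentiableOn.const_smul (DifferentiableOn.const_smul ?_ _) _
      intro z hz
      have hm : z + circleMap 0 ρ θ • v ∈ U :=
        hKU (hin z hz _ (sphere_subset_closedBall (circleMap_mem_sphere 0 hρ0.le θ)))
      have h1 : DifferentiableAt ℂ F (z + circleMap 0 ρ θ • v) := (hF _ hm).differentiableAt (hU.mem_nhds hm)
      have h2 : DifferentiableAt ℂ (fun z : E => z + circleMap 0 ρ θ • v) z := by fun_prop
      exact (h1.comp z h2).differentiableWithinAt
    · have hc : ContinuousOn (fun t : ℂ => ((t - 0) ^ 2)⁻¹ • F (z + t • v)) (sphere 0 ρ) := by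
        refine ContinuousOn.smul (ContinuousOn.inv₀ (by fun_prop) fun t ht => ?_) ?_
        · have : t ≠ 0 := by
            intro h0
            rw [h0, mem_sphere_iff_norm] at ht
            simp at ht
            exact hρ0.ne ht
          simpa using this
        · exact hF.continuousOn.comp (hline z).continuousOn fun t ht => hKU (hin z hz t (sphere_subset_closedBall ht))
      exact (hc.circleIntegrable hρ0.le).out.1.aestronglyMeasurable
    · obtain ⟨ε, hε, hεb⟩ := Metric.isOpen_iff.1 isOpen_ball z hz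
      refine ⟨ε, hε, fun _ => C / ρ, integrable_const _, fun z' hz' θ => ?_⟩
      have h1 := hC _ (hin z' (hεb hz') _ (sphere_subset_closedBall (circleMap_mem_sphere 0 hρ0.le θ)))
      rw [norm_smul, norm_smul, deriv_circleMap, norm_mul, norm_inv, norm_pow, sub_zero, norm_circleMap_zero,
        Complex.norm_I, mul_one, abs_of_pos hρ0]
      calc ρ * ((ρ ^ 2)⁻¹ * ‖F (z' + circleMap 0 ρ θ • v)‖) ≤ ρ * ((ρ ^ 2)⁻¹ * C) := by gcongr
        _ = C / ρ := by field_simp
  have hnhds : ball z₀ (R / 4) ∈ 𝓝 z₀ := ball_mem_nhds _ (by positivity)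
  have h3 : DifferentiableAt ℂ (fun z => Complex.cderiv ρ (fun t : ℂ => F (z + t • v)) 0) z₀ :=
    (hmain z₀ (mem_ball_self (by positivity))).differentiableAt hnhds
  exact (h3.congr_of_eventuallyEq (Filter.eventually_of_mem hnhds hcauchy)).differentiableWithinAt

end general

end

end Claimed.Agent.R285.Hol
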