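import Claimed.Agent.R285.Hol.Tn
import Claimed.Agent.R285.Hol.An
import Claimed.Agent.R285.Hol.Gs

/-!
# ROW 285, package PK-HOL, file 4: Gaussian convolution in the strip   (owner helper278)
`hol_conv` (closure of `Hol` under convolution), `gauss_shift_im` (complex Cameron-Martin).
The regulator `Wt` need not be measurable (`Extra.V` is arbitrary): all dominations go through `ptNorm`, which is lower semicontinuous.
-/

set_option autoImplicit false

namespace Claimed.Agent.R285.Hol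

open scoped BigOperators ENNReal NNReal
open MeasureTheory ProbabilityTheory Filter Topology
open Claimed.Agent.R285.RG

noncomputable section

/-- identity theorem, in the form used here: two holomorphic functions on a connected domain which agree at the real points near `0` -/
theorem eqOn_of_real_eq {D : Set ℂ} (hD : IsOpen D) (hc : IsPreconnected D) {f g : ℂ → ℂ} (hf : DifferentiableOn ℂ f D)
    (hg : DifferentiableOn ℂ g D) (h0 : (0 : ℂ) ∈ D) (hre : ∀ a : ℝ, (a : ℂ) ∈ D → f a = g a) : Set.EqOn f g D := by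
  refine (hf.analyticOnNhd hD).eqOn_of_preconnected_of_frequently_eq (hg.analyticOnNhd hD) hc h0 ?_
  have hlim : Tendsto (fun n : ℕ => ((1 / ((n : ℝ) + 1) : ℝ) : ℂ)) atTop (𝓝[≠] 0) := by
    rw [tendsto_nhdsWithin_iff]
    refine ⟨?_, Eventually.of_forall fun n => ?_⟩
    · have h1 := (Complex.continuous_ofReal.tendsto 0).comp tendsto_one_div_add_atTop_nhds_zero_nat
      simpa [Function.comp_def] using h1
    · simp only [Set.mem_compl_iff, Set.mem_singleton_iff, Complex.ofReal_eq_zero]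
      positivity
  refine hlim.frequently (Eventually.frequently ?_)
  have h2 : ∀ᶠ n : ℕ in atTop, ((1 / ((n : ℝ) + 1) : ℝ) : ℂ) ∈ D :=
    (hlim.mono_right nhdsWithin_le_nhds) (hD.mem_nhds h0)
  exact h2.mono fun n hn => hre _ hn

variable {G : Geom}

/-! ## complex lines in the strip -/

/-- the parameters `a` with `z + a u` in the strip -/
def lineDom (h : ℝ≥0) (g : Grid G) (X : Finset g.I) (z : G.V → ℂ) (u : G.V → ℝ) : Set ℂ :=
  {a | z + a • toC u ∈ strip h g X}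

theorem lineDom_isOpen (h : ℝ≥0) (g : Grid G) (X : Finset g.I) (z : G.V → ℂ) (u : G.V → ℝ) : IsOpen (lineDom h g X z u) :=
  (strip_isOpen h g X).preimage (by fun_prop : Continuous fun a : ℂ => z + a • toC u)

theorem lineDom_convex (h : ℝ≥0) (g : Grid G) (X : Finset g.I) (z : G.V → ℂ) (u : G.V → ℝ) : Convex ℝ (lineDom h g X z u) := by
  intro a ha b hb s t hs ht hst
  have h1 := strip_convex h g X ha hb hs ht hst
  have h2 : z + (s • a + t • b) • toC u = s • (z + a • toC u) + t • (z + b • toC u) := by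
    ext v
    have h3 : (s : ℂ) + t = 1 := by exact_mod_cast hst
    simp only [Pi.add_apply, Pi.smul_apply, smul_eq_mul, Complex.real_smul]
    linear_combination (-(z v)) * h3
  show z + (s • a + t • b) • toC u ∈ strip h g X
  rw [h2]
  exact h1

theorem real_mem_lineDom {h : ℝ≥0} {g : Grid G} {X : Finset g.I} {z : G.V → ℂ} (hz : z ∈ strip h g X) (u : G.V → ℝ) (a : ℝ) :
    (a : ℂ) ∈ lineDom h g X z u := by
  show z + (a : ℂ) • toC u ∈ strip h g X
  rw [← toC_smul]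
  exact strip_add_toC hz _

/-! ## domination -/

theorem ptNorm_lt_top (p : Par) (g : Grid G) (V : Extra g) (X : Finset g.I) (F : Fn G) (hfin : fnSize p g V X F ≠ ⊤)
    (φ : G.V → ℝ) : ptNorm p.h0 g X F φ < ⊤ :=
  (ptNorm_le_fnSize_mul p g V X F φ).trans_lt (ENNReal.mul_lt_top hfin.lt_top ENNReal.ofReal_lt_top)

theorem lintegral_ptNorm_ne_top (p : Par) (g : Grid G) (V : Extra g) (X : Finset g.I) (Γ : Matrix G.V G.V ℝ) (F : Fn G)
    (hfin : fnSize p g V X F ≠ ⊤) (hint : ∀ φ : G.V → ℝ, ∫⁻ ζ, ENNReal.ofReal (Wt g p.δ p.κ V X (φ + ζ)) ∂(gauss G Γ) ≠ ⊤)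
    (φ : G.V → ℝ) : ∫⁻ ζ, ptNorm p.h0 g X F (φ + ζ) ∂(gauss G Γ) ≠ ⊤ := by
  refine ne_top_of_le_ne_top ?_ (lintegral_mono fun ζ => ptNorm_le_fnSize_mul p g V X F (φ + ζ))
  rw [lintegral_const_mul' _ _ hfin]
  exact ENNReal.mul_ne_top hfin (hint φ)

theorem norm_le_ptNorm_toReal (p : Par) (g : Grid G) (V : Extra g) (X : Finset g.I) (F : Fn G) (hfin : fnSize p g V X F ≠ ⊤)
    (φ : G.V → ℝ) (f : G.V → ℂ) (hf : tnorm g X f < p.h0) : ‖F (toC φ + f)‖ ≤ (ptNorm p.h0 g X F φ).toReal := by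
  have h := ENNReal.toReal_mono (ptNorm_lt_top p g V X F hfin φ).ne (le_ptNorm p.h0 g X F φ f hf)
  simpa using h

/-- near a point `w` of the strip, `F (w' + ζ)` is dominated by the point norm at the real centre `Re w + ζ` -/
theorem strip_local_bound (p : Par) (g : Grid G) (V : Extra g) (X : Finset g.I) (F : Fn G) (hfin : fnSize p g V X F ≠ ⊤)
    {w : G.V → ℂ} (hw : w ∈ strip p.h0 g X) :
    ∃ ε > 0, ∀ w' ∈ Metric.ball w ε, ∀ ζ : G.V → ℝ,
      ‖F (w' + toC ζ)‖ ≤ (ptNorm p.h0 g X F ((fun v => (w v).re) + ζ)).toReal := by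
  have hopen : IsOpen {w' : G.V → ℂ | tnorm g X (w' - toC (fun v => (w v).re)) < p.h0} :=
    isOpen_lt ((tnorm_continuous g X).comp (by fun_prop)) continuous_const
  have hmem : w ∈ {w' : G.V → ℂ | tnorm g X (w' - toC (fun v => (w v).re)) < p.h0} := by
    show tnorm g X (w - toC (fun v => (w v).re)) < p.h0
    have h1 : w - toC (fun v => (w v).re) = Complex.I • toC (fun v => (w v).im) := by
      have h0 := strip_decomp w
      rw [sub_eq_iff_eq_add, add_comm]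
      exact h0
    rw [h1, tnorm_I_smul_toC]
    exact hw
  obtain ⟨ε, hε, hball⟩ := Metric.isOpen_iff.1 hopen w hmem
  refine ⟨ε, hε, fun w' hw' ζ => ?_⟩
  have h2 : w' + toC ζ = toC ((fun v => (w v).re) + ζ) + (w' - toC (fun v => (w v).re)) := by
    rw [toC_add]; abel
  rw [h2]
  exact norm_le_ptNorm_toReal p g V X F hfin _ _ (hball hw')

theorem ptNorm_integrable (p : Par) (g : Grid G) (V : Extra g) (X : Finset g.I) (Γ : Matrix G.V G.V ℝ) (F : Fn G)
    (hF : Hol p.h0 g X F) (hfin : fnSize p g V X F ≠ ⊤)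
    (hint : ∀ φ : G.V → ℝ, ∫⁻ ζ, ENNReal.ofReal (Wt g p.δ p.κ V X (φ + ζ)) ∂(gauss G Γ) ≠ ⊤) (φ : G.V → ℝ) :
    Integrable (fun ζ => (ptNorm p.h0 g X F (φ + ζ)).toReal) (gauss G Γ) :=
  integrable_toReal_of_lintegral_ne_top
    ((ptNorm_measurable p.h0 g X F hF).comp (measurable_const_add φ)).aemeasurable
    (lintegral_ptNorm_ne_top p g V X Γ F hfin hint φ)

theorem continuous_comp_shift {h : ℝ≥0} {g : Grid G} {X : Finset g.I} {F : Fn G} (hF : Hol h g X F) {z : G.V → ℂ}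
    (hz : z ∈ strip h g X) : Continuous fun ζ : G.V → ℝ => F (z + toC ζ) :=
  hF.continuousOn.comp_continuous (continuous_const.add toC_continuous) fun ζ => strip_add_toC hz ζ

/-- closure of `Hol` under Gaussian convolution -/
theorem hol_conv (p : Par) (g : Grid G) (V : Extra g) (X : Finset g.I) (Γ : Matrix G.V G.V ℝ) (F : Fn G) (hF : Hol p.h0 g X F)
    (hfin : fnSize p g V X F ≠ ⊤) (hint : ∀ φ : G.V → ℝ, ∫⁻ ζ, ENNReal.ofReal (Wt g p.δ p.κ V X (φ + ζ)) ∂(gauss G Γ) ≠ ⊤) :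
    Hol p.h0 g X (conv Γ F) := by
  unfold Hol conv
  refine hol_integral (gauss G Γ) _ (strip_isOpen _ _ _) (fun z ζ => F (z + toC ζ)) (fun ζ => ?_) (fun z hz => ?_)
    (fun z hz => ?_)
  · exact hF.comp (by fun_prop) fun z hz => strip_add_toC hz ζ
  · exact (continuous_comp_shift hF hz).aestronglyMeasurable
  · obtain ⟨ε, hε, hb⟩ := strip_local_bound p g V X F hfin hz
    exact ⟨ε, hε, _, ptNorm_integrable p g V X Γ F hF hfin hint _, hb⟩

/-! ## complex Cameron-Martin -/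

/-- exponential moments of the point norm, from `hint` at the shifted centres -/
theorem exp_ptNorm_integrable (p : Par) (g : Grid G) (V : Extra g) (X : Finset g.I) (Γ : Matrix G.V G.V ℝ) (hΓ : Γ.PosSemidef)
    (F : Fn G) (hF : Hol p.h0 g X F) (hfin : fnSize p g V X F ≠ ⊤)
    (hint : ∀ φ : G.V → ℝ, ∫⁻ ζ, ENNReal.ofReal (Wt g p.δ p.κ V X (φ + ζ)) ∂(gauss G Γ) ≠ ⊤) (η φ : G.V → ℝ) (c : ℝ) :
    Integrable (fun ζ => Real.exp (c * (η ⬝ᵥ ζ)) * (ptNorm p.h0 g X F (φ + ζ)).toReal) (gauss G Γ) := by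
  have hm : Measurable fun ζ : G.V → ℝ => ptNorm p.h0 g X F (φ + ζ) :=
    (ptNorm_measurable p.h0 g X F hF).comp (measurable_const_add φ)
  have h1 := gauss_shift_lintegral Γ hΓ (c • η) _ hm
  have h2 : ∫⁻ ζ, ptNorm p.h0 g X F (φ + (ζ + Γ.mulVec (c • η))) ∂(gauss G Γ) ≠ ⊤ := by
    have := lintegral_ptNorm_ne_top p g V X Γ F hfin hint (φ + Γ.mulVec (c • η))
    have h3 : ∀ ζ : G.V → ℝ, φ + (ζ + Γ.mulVec (c • η)) = φ + Γ.mulVec (c • η) + ζ := fun ζ => by abel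
    simp_rw [h3]
    exact this
  rw [h1] at h2
  have h4 := integrable_toReal_of_lintegral_ne_top ((cm_density_measurable Γ (c • η)).mul hm).aemeasurable h2
  have h5 := h4.const_mul (Real.exp (((c • η) ⬝ᵥ Γ.mulVec (c • η)) / 2))
  refine h5.congr (Eventually.of_forall fun ζ => ?_)
  simp only [Pi.mul_apply, ENNReal.toReal_mul, ENNReal.toReal_ofReal (Real.exp_pos _).le]
  rw [← mul_assoc, ← Real.exp_add]
  congr 2
  have h6 : (c • η) ⬝ᵥ ζ = c * (η ⬝ᵥ ζ) := by rw [smul_dotProduct, smul_eq_mul]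
  rw [h6]
  ring

theorem exp_mul_le_add (α α₀ ε w : ℝ) (h : |α - α₀| ≤ ε) :
    Real.exp (-(α * w)) ≤ Real.exp (-(α₀ - ε) * w) + Real.exp (-(α₀ + ε) * w) := by
  rw [abs_le] at h
  rcases le_total 0 w with hw | hw
  · have h1 : -(α * w) ≤ -(α₀ - ε) * w := by nlinarith [h.1]
    exact (Real.exp_le_exp.2 h1).trans (le_add_of_nonneg_right (Real.exp_pos _).le)
  · have h1 : -(α * w) ≤ -(α₀ + ε) * w := by nlinarith [h.2]
    exact (Real.exp_le_exp.2 h1).trans (le_add_of_nonneg_left (Real.exp_pos _).le)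

/-- the interpolating function of the complex Cameron-Martin formula -/
def cmFun (Γ : Matrix G.V G.V ℝ) (F : Fn G) (η : G.V → ℝ) (z : G.V → ℂ) (a : ℂ) (ζ : G.V → ℝ) : ℂ :=
  Complex.exp (-(a * ((η ⬝ᵥ ζ : ℝ) : ℂ)) - a ^ 2 * ((η ⬝ᵥ Γ.mulVec η : ℝ) : ℂ) / 2) * F (z + toC ζ + a • toC (Γ.mulVec η))

theorem cmFun_real (Γ : Matrix G.V G.V ℝ) (hΓ : Γ.PosSemidef) (F : Fn G) (η : G.V → ℝ) (z : G.V → ℂ) (a : ℝ) :
    ∫ ζ, cmFun Γ F η z a ζ ∂(gauss G Γ) = conv Γ F z := by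
  have h1 := gauss_shift_integral Γ hΓ (a • η)
    (fun ζ => Complex.exp (-((a : ℂ) * ((η ⬝ᵥ ζ : ℝ) : ℂ)) + (a : ℂ) ^ 2 * ((η ⬝ᵥ Γ.mulVec η : ℝ) : ℂ) / 2) * F (z + toC ζ))
  have hmv : Γ.mulVec (a • η) = a • Γ.mulVec η := Matrix.mulVec_smul _ _ _
  unfold conv
  rw [show (∫ ζ, cmFun Γ F η z a ζ ∂(gauss G Γ)) = ∫ ζ, Complex.exp (-((a : ℂ) * ((η ⬝ᵥ (ζ + Γ.mulVec (a • η)) : ℝ) : ℂ))
      + (a : ℂ) ^ 2 * ((η ⬝ᵥ Γ.mulVec η : ℝ) : ℂ) / 2) * F (z + toC (ζ + Γ.mulVec (a • η))) ∂(gauss G Γ) from ?_, h1]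
  · refine integral_congr_ae (Eventually.of_forall fun ζ => ?_)
    simp only
    rw [Complex.real_smul, Complex.ofReal_exp, ← mul_assoc, ← Complex.exp_add]
    have h2 : (((a • η) ⬝ᵥ ζ - ((a • η) ⬝ᵥ Γ.mulVec (a • η)) / 2 : ℝ) : ℂ)
        + (-((a : ℂ) * ((η ⬝ᵥ ζ : ℝ) : ℂ)) + (a : ℂ) ^ 2 * ((η ⬝ᵥ Γ.mulVec η : ℝ) : ℂ) / 2) = 0 := by
      rw [hmv, smul_dotProduct, smul_dotProduct, dotProduct_smul]
      simp only [smul_eq_mul]
      push_cast
      ring
    rw [h2, Complex.exp_zero, one_mul]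
  · refine integral_congr_ae (Eventually.of_forall fun ζ => ?_)
    simp only [cmFun]
    rw [hmv, toC_add, toC_smul, add_assoc, dotProduct_add, dotProduct_smul]
    congr 2
    simp only [smul_eq_mul]
    push_cast
    ring

theorem cmFun_differentiableOn (p : Par) (g : Grid G) (V : Extra g) (X : Finset g.I) (Γ : Matrix G.V G.V ℝ) (hΓ : Γ.PosSemidef)
    (F : Fn G) (hF : Hol p.h0 g X F) (hfin : fnSize p g V X F ≠ ⊤)
    (hint : ∀ φ : G.V → ℝ, ∫⁻ ζ, ENNReal.ofReal (Wt g p.δ p.κ V X (φ + ζ)) ∂(gauss G Γ) ≠ ⊤)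
    (η : G.V → ℝ) (z : G.V → ℂ) :
    DifferentiableOn ℂ (fun a => ∫ ζ, cmFun Γ F η z a ζ ∂(gauss G Γ)) (lineDom p.h0 g X z (Γ.mulVec η)) := by
  set u := Γ.mulVec η with hu
  set q := η ⬝ᵥ u with hq
  have hre : ∀ (a : ℂ) (ζ : G.V → ℝ), z + toC ζ + a • toC u = z + a • toC u + toC ζ := fun a ζ => by abel
  refine hol_integral (gauss G Γ) _ (lineDom_isOpen _ _ _ _ _) (fun a ζ => cmFun Γ F η z a ζ) (fun ζ => ?_)
    (fun a ha => ?_) (fun a₀ ha₀ => ?_)
  · unfold cmFun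
    refine DifferentiableOn.mul (by fun_prop) ?_
    refine hF.comp (by fun_prop) fun a ha => ?_
    rw [← hu, hre]
    exact strip_add_toC ha ζ
  · unfold cmFun
    refine Continuous.aestronglyMeasurable (Continuous.mul ?_ ?_)
    · have := dot_continuous (G := G) η
      fun_prop
    · simp_rw [← hu, hre]
      exact continuous_comp_shift hF ha
  · obtain ⟨ε, hε, hb⟩ := strip_local_bound p g V X F hfin ha₀
    set ε' := min 1 (ε / (‖toC u‖ + 1)) with hε'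
    have hε'0 : 0 < ε' := lt_min one_pos (by positivity)
    set φ₀ : G.V → ℝ := fun v => ((z + a₀ • toC u) v).re with hφ₀
    set C := Real.exp ((‖a₀‖ + 1) ^ 2 * |q| / 2) with hC
    refine ⟨ε', hε'0, fun ζ => C * (Real.exp (-(a₀.re - ε') * (η ⬝ᵥ ζ)) * (ptNorm p.h0 g X F (φ₀ + ζ)).toReal
      + Real.exp (-(a₀.re + ε') * (η ⬝ᵥ ζ)) * (ptNorm p.h0 g X F (φ₀ + ζ)).toReal), ?_, fun a ha ζ => ?_⟩
    · exact ((exp_ptNorm_integrable p g V X Γ hΓ F hF hfin hint η φ₀ _).add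
        (exp_ptNorm_integrable p g V X Γ hΓ F hF hfin hint η φ₀ _)).const_mul _
    · rw [Metric.mem_ball, dist_eq_norm] at ha
      have ha1 : ‖a - a₀‖ < 1 := ha.trans_le (min_le_left _ _)
      have ha2 : ‖a - a₀‖ < ε / (‖toC u‖ + 1) := ha.trans_le (min_le_right _ _)
      have hw' : z + a • toC u ∈ Metric.ball (z + a₀ • toC u) ε := by
        rw [Metric.mem_ball, dist_eq_norm]
        have h1 : z + a • toC u - (z + a₀ • toC u) = (a - a₀) • toC u := by rw [sub_smul]; abel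
        rw [h1, norm_smul]
        calc ‖a - a₀‖ * ‖toC u‖ ≤ ‖a - a₀‖ * (‖toC u‖ + 1) := by gcongr; linarith
          _ < ε / (‖toC u‖ + 1) * (‖toC u‖ + 1) := by gcongr
          _ = ε := by field_simp
      have hFb := hb _ hw' ζ
      unfold cmFun
      rw [← hu, ← hq, hre, norm_mul, Complex.norm_exp]
      have hP : 0 ≤ (ptNorm p.h0 g X F (φ₀ + ζ)).toReal := ENNReal.toReal_nonneg
      have hexp : Real.exp ((-(a * ((η ⬝ᵥ ζ : ℝ) : ℂ)) - a ^ 2 * (q : ℂ) / 2).re)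
          ≤ C * (Real.exp (-(a₀.re - ε') * (η ⬝ᵥ ζ)) + Real.exp (-(a₀.re + ε') * (η ⬝ᵥ ζ))) := by
        have h1 : (-(a * ((η ⬝ᵥ ζ : ℝ) : ℂ)) - a ^ 2 * (q : ℂ) / 2).re = -(a.re * (η ⬝ᵥ ζ)) + -((a ^ 2).re * q / 2) := by
          simp [Complex.mul_re]
          ring
        rw [h1, Real.exp_add, mul_comm]
        have h2 : -((a ^ 2).re * q / 2) ≤ (‖a₀‖ + 1) ^ 2 * |q| / 2 := by
          have h3 : |(a ^ 2).re| ≤ (‖a₀‖ + 1) ^ 2 := by
            calc |(a ^ 2).re| ≤ ‖a ^ 2‖ := Complex.abs_re_le_norm _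
              _ = ‖a‖ ^ 2 := norm_pow _ _
              _ ≤ (‖a₀‖ + 1) ^ 2 := by
                gcongr
                calc ‖a‖ = ‖a₀ + (a - a₀)‖ := by congr 1; ring
                  _ ≤ ‖a₀‖ + ‖a - a₀‖ := norm_add_le _ _
                  _ ≤ ‖a₀‖ + 1 := by linarith
          have h4 : -((a ^ 2).re * q) ≤ |(a ^ 2).re| * |q| := by
            rw [← abs_mul]; exact neg_le_abs _
          have h5 : |(a ^ 2).re| * |q| ≤ (‖a₀‖ + 1) ^ 2 * |q| := by gcongr
          linarith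
        have h6 : |a.re - a₀.re| ≤ ε' := by
          rw [← Complex.sub_re]
          exact (Complex.abs_re_le_norm _).trans ha.le
        exact mul_le_mul (Real.exp_le_exp.2 h2) (exp_mul_le_add _ _ _ _ h6) (Real.exp_pos _).le (Real.exp_pos _).le
      calc Real.exp ((-(a * ((η ⬝ᵥ ζ : ℝ) : ℂ)) - a ^ 2 * (q : ℂ) / 2).re) * ‖F (z + a • toC u + toC ζ)‖
          ≤ (C * (Real.exp (-(a₀.re - ε') * (η ⬝ᵥ ζ)) + Real.exp (-(a₀.re + ε') * (η ⬝ᵥ ζ))))
              * (ptNorm p.h0 g X F (φ₀ + ζ)).toReal :=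
            mul_le_mul hexp hFb (norm_nonneg _) (by positivity)
        _ = _ := by ring

/-- complex Cameron-Martin: imaginary shift `i s Γ η`, for functions holomorphic in the strip with a regulator bound. -/
theorem gauss_shift_im (p : Par) (g : Grid G) (V : Extra g) (X : Finset g.I) (Γ : Matrix G.V G.V ℝ) (hΓ : Γ.PosSemidef) (F : Fn G)
    (hF : Hol p.h0 g X F) (hfin : fnSize p g V X F ≠ ⊤)
    (hint : ∀ φ : G.V → ℝ, ∫⁻ ζ, ENNReal.ofReal (Wt g p.δ p.κ V X (φ + ζ)) ∂(gauss G Γ) ≠ ⊤)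
    (η : G.V → ℝ) (s : ℝ) (z : G.V → ℂ)
    (hz : tnorm g X (fun v => (z v).im) + (‖s‖₊ : ℝ≥0) * tnorm g X (Γ.mulVec η) < p.h0) :
    conv Γ F z = Complex.exp ((s ^ 2 * (η ⬝ᵥ Γ.mulVec η) / 2 : ℝ)) *
      ∫ ζ, Complex.exp (-(Complex.I * ((s * (η ⬝ᵥ ζ) : ℝ) : ℂ))) * F (z + toC ζ + (Complex.I * s) • toC (Γ.mulVec η)) ∂(gauss G Γ) := by
  have hz0 : z ∈ strip p.h0 g X := lt_of_le_of_lt le_self_add hz
  have hIs : Complex.I * s ∈ lineDom p.h0 g X z (Γ.mulVec η) := by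
    show z + (Complex.I * s) • toC (Γ.mulVec η) ∈ strip p.h0 g X
    rw [mem_strip]
    have h1 : (fun v => ((z + (Complex.I * s) • toC (Γ.mulVec η)) v).im) = (fun v => (z v).im) + s • Γ.mulVec η := by
      ext v; simp [toC]
    rw [h1]
    refine (tnorm_add_le g X _ _).trans_lt ?_
    rwa [tnorm_smul]
  have h0 : (0 : ℂ) ∈ lineDom p.h0 g X z (Γ.mulVec η) := by
    have := real_mem_lineDom hz0 (Γ.mulVec η) 0
    simpa using this
  have key := eqOn_of_real_eq (lineDom_isOpen p.h0 g X z (Γ.mulVec η)) (lineDom_convex p.h0 g X z (Γ.mulVec η)).isPreconnected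
    (cmFun_differentiableOn p g V X Γ hΓ F hF hfin hint η z) (differentiableOn_const (conv Γ F z)) h0
    (fun a _ => cmFun_real Γ hΓ F η z a) hIs
  simp only at key
  rw [← key, ← integral_const_mul]
  refine integral_congr_ae (Eventually.of_forall fun ζ => ?_)
  simp only [cmFun]
  rw [← mul_assoc, ← Complex.exp_add]
  congr 2
  push_cast
  have hI : Complex.I ^ 2 = -1 := Complex.I_sq
  linear_combination (-(s : ℂ) ^ 2 * ((η ⬝ᵥ Γ.mulVec η : ℝ) : ℂ) / 2) * hI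

end

end Claimed.Agent.R285.Hol
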