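import Claimed.Agent.R285.Hol.Cv

/-!
# ROW 285, package PK-HOL, file 8: independence of Gaussian blocks   (owner helper278)   -- probabilistic core of `conv_factor` (PK-SCAL)
`gauss_iIndep` (blocks with vanishing cross covariance are independent), `gauss_integral_prod`, `gauss_integral_finset_prod`, `conv_finset_prod`.
-/

set_option autoImplicit false

namespace Claimed.Agent.R285.Hol

open scoped BigOperators ENNReal NNReal
open MeasureTheory ProbabilityTheory Filter Topology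
open Claimed.Agent.R285.RG

noncomputable section

variable {G : Geom}

instance gauss_isGaussian (Γ : Matrix G.V G.V ℝ) : IsGaussian (gauss G Γ) := by
  rw [gauss_eq]
  have h : ⇑(MeasurableEquiv.toLp 2 (G.V → ℝ)).symm
      = ⇑((PiLp.continuousLinearEquiv 2 ℝ (fun _ : G.V => ℝ)).toContinuousLinearMap) := rfl
  rw [h]
  infer_instance

theorem gauss_cov (Γ : Matrix G.V G.V ℝ) (hΓ : Γ.PosSemidef) (v w : G.V) :
    cov[fun ζ : G.V → ℝ => ζ v, fun ζ : G.V → ℝ => ζ w; gauss G Γ] = Γ v w := by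
  rw [gauss_eq, covariance_map (measurable_pi_apply v).aestronglyMeasurable (measurable_pi_apply w).aestronglyMeasurable
    (MeasurableEquiv.measurable _).aemeasurable]
  exact covariance_eval_multivariateGaussian hΓ v w

/-- blocks of coordinates with vanishing cross covariance are independent -/
theorem gauss_iIndep {J : Type} [Fintype J] (Γ : Matrix G.V G.V ℝ) (hΓ : Γ.PosSemidef) (S : J → Finset G.V)
    (h0 : ∀ i j, i ≠ j → ∀ v ∈ S i, ∀ w ∈ S j, Γ v w = 0) :
    iIndepFun (fun (i : J) (ζ : G.V → ℝ) (k : S i) => ζ k) (gauss G Γ) := by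
  refine HasGaussianLaw.iIndepFun_of_covariance_eval (X := fun i (k : S i) (ζ : G.V → ℝ) => ζ k) ?_ ?_
  · let L : (G.V → ℝ) →L[ℝ] (Π i : J, S i → ℝ) :=
      ContinuousLinearMap.pi fun i => ContinuousLinearMap.pi fun k => ContinuousLinearMap.proj (k : G.V)
    exact (IsGaussian.hasGaussianLaw_id (μ := gauss G Γ)).map_fun L
  · intro i j hij k l
    rw [gauss_cov Γ hΓ]
    exact h0 i j hij k k.2 l l.2

/-- extension by zero -/
def extZ (S : Finset G.V) (x : S → ℝ) : G.V → ℝ := fun v => if h : v ∈ S then x ⟨v, h⟩ else 0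

theorem extZ_measurable (S : Finset G.V) : Measurable (extZ S) := by
  refine measurable_pi_iff.2 fun v => ?_
  unfold extZ
  by_cases h : v ∈ S
  · simp only [h, dite_true]
    exact measurable_pi_apply _
  · simp only [h, dite_false]
    exact measurable_const

theorem extZ_restrict (S : Finset G.V) (ζ : G.V → ℝ) : ∀ v ∈ S, extZ S (fun k : S => ζ k) v = ζ v := by
  intro v hv
  simp [extZ, hv]

/-- factorisation of the expectation of a product of functions of independent blocks -/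
theorem gauss_integral_prod {J : Type} [Fintype J] (Γ : Matrix G.V G.V ℝ) (hΓ : Γ.PosSemidef) (S : J → Finset G.V)
    (h0 : ∀ i j, i ≠ j → ∀ v ∈ S i, ∀ w ∈ S j, Γ v w = 0) (f : J → (G.V → ℝ) → ℂ)
    (hloc : ∀ i ζ ζ', (∀ v ∈ S i, ζ v = ζ' v) → f i ζ = f i ζ') (hm : ∀ i, Measurable (f i)) :
    ∫ ζ, ∏ i, f i ζ ∂(gauss G Γ) = ∏ i, ∫ ζ, f i ζ ∂(gauss G Γ) := by
  have hind := gauss_iIndep Γ hΓ S h0
  have key := hind.integral_fun_prod_comp (f := fun i (x : S i → ℝ) => f i (extZ (S i) x))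
    (fun i => (measurable_pi_iff.2 fun k => measurable_pi_apply _).aemeasurable)
    (fun i => ((hm i).comp (extZ_measurable (S i))).aestronglyMeasurable)
  have hf : ∀ i ζ, f i (extZ (S i) fun k : S i => ζ k) = f i ζ := fun i ζ => hloc i _ _ (extZ_restrict (S i) ζ)
  simp only [hf] at key
  exact key

theorem gauss_integral_finset_prod {J : Type} (s : Finset J) (Γ : Matrix G.V G.V ℝ) (hΓ : Γ.PosSemidef) (S : J → Finset G.V)
    (h0 : ∀ i ∈ s, ∀ j ∈ s, i ≠ j → ∀ v ∈ S i, ∀ w ∈ S j, Γ v w = 0) (f : J → (G.V → ℝ) → ℂ)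
    (hloc : ∀ i ∈ s, ∀ ζ ζ', (∀ v ∈ S i, ζ v = ζ' v) → f i ζ = f i ζ') (hm : ∀ i ∈ s, Measurable (f i)) :
    ∫ ζ, ∏ i ∈ s, f i ζ ∂(gauss G Γ) = ∏ i ∈ s, ∫ ζ, f i ζ ∂(gauss G Γ) := by
  have key := gauss_integral_prod (J := s) Γ hΓ (fun i => S i)
    (fun i j hij v hv w hw => h0 i i.2 j j.2 (fun h => hij (Subtype.ext h)) v hv w hw) (fun i => f i)
    (fun i => hloc i i.2) (fun i => hm i i.2)
  rw [Finset.prod_coe_sort s (fun i => ∫ ζ, f i ζ ∂(gauss G Γ))] at key
  rw [← key]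
  refine integral_congr_ae (Eventually.of_forall fun ζ => ?_)
  exact (Finset.prod_coe_sort s (fun i => f i ζ)).symm

/-- factorisation of a Gaussian convolution at ONE point `z` -/
theorem conv_finset_prod {J : Type} (s : Finset J) (Γ : Matrix G.V G.V ℝ) (hΓ : Γ.PosSemidef) (S : J → Finset G.V)
    (h0 : ∀ i ∈ s, ∀ j ∈ s, i ≠ j → ∀ v ∈ S i, ∀ w ∈ S j, Γ v w = 0) (F : J → Fn G) (z : G.V → ℂ)
    (hloc : ∀ i ∈ s, ∀ ζ ζ' : G.V → ℝ, (∀ v ∈ S i, ζ v = ζ' v) → F i (z + toC ζ) = F i (z + toC ζ'))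
    (hm : ∀ i ∈ s, Measurable fun ζ : G.V → ℝ => F i (z + toC ζ)) :
    conv Γ (∏ i ∈ s, F i) z = ∏ i ∈ s, conv Γ (F i) z := by
  unfold conv
  simp only [Finset.prod_apply]
  exact gauss_integral_finset_prod s Γ hΓ S h0 (fun i ζ => F i (z + toC ζ)) hloc hm

/-- additivity of a Gaussian convolution at ONE point `z` -/
theorem conv_finset_sum {J : Type} (s : Finset J) (Γ : Matrix G.V G.V ℝ) (F : J → Fn G) (z : G.V → ℂ)
    (hi : ∀ i ∈ s, Integrable (fun ζ : G.V → ℝ => F i (z + toC ζ)) (gauss G Γ)) :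
    conv Γ (∑ i ∈ s, F i) z = ∑ i ∈ s, conv Γ (F i) z := by
  unfold conv
  simp only [Finset.sum_apply]
  exact integral_finsetSum s hi

/-- integrability of `ζ ↦ F (z + ζ)` for `z` in the strip -/
theorem conv_integrable (p : Par) (g : Grid G) (V : Extra g) (X : Finset g.I) (Γ : Matrix G.V G.V ℝ) (F : Fn G)
    (hF : Hol p.h0 g X F) (hfin : fnSize p g V X F ≠ ⊤)
    (hint : ∀ φ : G.V → ℝ, ∫⁻ ζ, ENNReal.ofReal (Wt g p.δ p.κ V X (φ + ζ)) ∂(gauss G Γ) ≠ ⊤)
    {z : G.V → ℂ} (hz : z ∈ strip p.h0 g X) : Integrable (fun ζ : G.V → ℝ => F (z + toC ζ)) (gauss G Γ) := by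
  obtain ⟨ε, hε, hb⟩ := strip_local_bound p g V X F hfin hz
  exact (ptNorm_integrable p g V X Γ F hF hfin hint _).mono' (continuous_comp_shift hF hz).aestronglyMeasurable
    (Eventually.of_forall fun ζ => hb z (Metric.mem_ball_self hε) ζ)

end

end Claimed.Agent.R285.Hol
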