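import Claimed.Agent.R285.Hol.Cv

/-!
# ROW 285, package PK-HOL, file 7: complex Cameron-Martin along a line, general form   (owner helper278)
`gauss_shift_line`: for a family `Ψ a ζ`, holomorphic in `a`, which for REAL `a = σ` is the translate `Ψ 0 (ζ + σ Γ η)`.
This is the form needed for [B] L4.6: `Γ η` has a large constant part, which is removed by the charge equivariance BEFORE the continuation.
-/

set_option autoImplicit false

namespace Claimed.Agent.R285.Hol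

open scoped BigOperators ENNReal NNReal
open MeasureTheory ProbabilityTheory Filter Topology
open Claimed.Agent.R285.RG

noncomputable section

variable {G : Geom}

/-- the Cameron-Martin weight with a complex parameter -/
def cmW (Γ : Matrix G.V G.V ℝ) (η : G.V → ℝ) (a : ℂ) (ζ : G.V → ℝ) : ℂ :=
  Complex.exp (-(a * ((η ⬝ᵥ ζ : ℝ) : ℂ)) - a ^ 2 * ((η ⬝ᵥ Γ.mulVec η : ℝ) : ℂ) / 2)

theorem cmW_continuous (Γ : Matrix G.V G.V ℝ) (η : G.V → ℝ) (a : ℂ) : Continuous (cmW Γ η a) := by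
  unfold cmW
  have := dot_continuous (G := G) η
  fun_prop

theorem cmW_differentiable (Γ : Matrix G.V G.V ℝ) (η : G.V → ℝ) (ζ : G.V → ℝ) : Differentiable ℂ fun a => cmW Γ η a ζ := by
  unfold cmW
  fun_prop

theorem norm_cmW_le (Γ : Matrix G.V G.V ℝ) (η : G.V → ℝ) (a a₀ : ℂ) (ε : ℝ) (hε : ε ≤ 1) (ha : ‖a - a₀‖ < ε) (ζ : G.V → ℝ) :
    ‖cmW Γ η a ζ‖ ≤ Real.exp ((‖a₀‖ + 1) ^ 2 * |η ⬝ᵥ Γ.mulVec η| / 2)
      * (Real.exp (-(a₀.re - ε) * (η ⬝ᵥ ζ)) + Real.exp (-(a₀.re + ε) * (η ⬝ᵥ ζ))) := by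
  set q := η ⬝ᵥ Γ.mulVec η with hq
  unfold cmW
  rw [Complex.norm_exp, ← hq]
  have h1 : (-(a * ((η ⬝ᵥ ζ : ℝ) : ℂ)) - a ^ 2 * (q : ℂ) / 2).re = -(a.re * (η ⬝ᵥ ζ)) + -((a ^ 2).re * q / 2) := by
    simp [Complex.mul_re]
    ring
  rw [h1, Real.exp_add, mul_comm]
  have h2 : -((a ^ 2).re * q / 2) ≤ (‖a₀‖ + 1) ^ 2 * |q| / 2 := by
    have h3 : |(a ^ 2).re| ≤ (‖a₀‖ + 1) ^ 2 := by
      calc |(a ^ 2).re| ≤ ‖a ^ 2‖ := Complex.abs_re_le_norm _
        _ = ‖a‖ ^ 2 := norm_pow _ _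
        _ ≤ (‖a₀‖ + 1) ^ 2 := by
          gcongr
          calc ‖a‖ = ‖a₀ + (a - a₀)‖ := by congr 1; ring
            _ ≤ ‖a₀‖ + ‖a - a₀‖ := norm_add_le _ _
            _ ≤ ‖a₀‖ + 1 := by linarith
    have h4 : -((a ^ 2).re * q) ≤ |(a ^ 2).re| * |q| := by
      rw [← abs_mul]; exact neg_le_abs _
    have h5 : |(a ^ 2).re| * |q| ≤ (‖a₀‖ + 1) ^ 2 * |q| := by gcongr
    linarith
  have h6 : |a.re - a₀.re| ≤ ε := by
    rw [← Complex.sub_re]
    exact (Complex.abs_re_le_norm _).trans ha.le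
  exact mul_le_mul (Real.exp_le_exp.2 h2) (exp_mul_le_add _ _ _ _ h6) (Real.exp_pos _).le (Real.exp_pos _).le

/-- real parameters: Cameron-Martin -/
theorem cmW_real (Γ : Matrix G.V G.V ℝ) (hΓ : Γ.PosSemidef) (η : G.V → ℝ) (H : (G.V → ℝ) → ℂ) (σ : ℝ) :
    ∫ ζ, cmW Γ η σ ζ * H (ζ + σ • Γ.mulVec η) ∂(gauss G Γ) = ∫ ζ, H ζ ∂(gauss G Γ) := by
  have h1 := gauss_shift_integral Γ hΓ (σ • η)
    (fun ζ => Complex.exp (-((σ : ℂ) * ((η ⬝ᵥ ζ : ℝ) : ℂ)) + (σ : ℂ) ^ 2 * ((η ⬝ᵥ Γ.mulVec η : ℝ) : ℂ) / 2) * H ζ)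
  have hmv : Γ.mulVec (σ • η) = σ • Γ.mulVec η := Matrix.mulVec_smul _ _ _
  rw [show (∫ ζ, cmW Γ η σ ζ * H (ζ + σ • Γ.mulVec η) ∂(gauss G Γ))
      = ∫ ζ, Complex.exp (-((σ : ℂ) * ((η ⬝ᵥ (ζ + Γ.mulVec (σ • η)) : ℝ) : ℂ))
      + (σ : ℂ) ^ 2 * ((η ⬝ᵥ Γ.mulVec η : ℝ) : ℂ) / 2) * H (ζ + Γ.mulVec (σ • η)) ∂(gauss G Γ) from ?_, h1]
  · refine integral_congr_ae (Eventually.of_forall fun ζ => ?_)
    simp only
    rw [Complex.real_smul, Complex.ofReal_exp, ← mul_assoc, ← Complex.exp_add]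
    have h2 : (((σ • η) ⬝ᵥ ζ - ((σ • η) ⬝ᵥ Γ.mulVec (σ • η)) / 2 : ℝ) : ℂ)
        + (-((σ : ℂ) * ((η ⬝ᵥ ζ : ℝ) : ℂ)) + (σ : ℂ) ^ 2 * ((η ⬝ᵥ Γ.mulVec η : ℝ) : ℂ) / 2) = 0 := by
      rw [hmv, smul_dotProduct, smul_dotProduct, dotProduct_smul]
      simp only [smul_eq_mul]
      push_cast
      ring
    rw [h2, Complex.exp_zero, one_mul]
  · refine integral_congr_ae (Eventually.of_forall fun ζ => ?_)
    simp only [cmW]
    rw [hmv, dotProduct_add, dotProduct_smul]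
    congr 2
    simp only [smul_eq_mul]
    push_cast
    ring

/-- **complex Cameron-Martin along a line, general form.** -/
theorem gauss_shift_line (Γ : Matrix G.V G.V ℝ) (hΓ : Γ.PosSemidef) (η : G.V → ℝ) (D : Set ℂ) (hD : IsOpen D)
    (hc : IsPreconnected D) (h0 : (0 : ℂ) ∈ D) (Ψ : ℂ → (G.V → ℝ) → ℂ)
    (hhol : ∀ ζ, DifferentiableOn ℂ (fun a => Ψ a ζ) D)
    (hmeas : ∀ a ∈ D, AEStronglyMeasurable (Ψ a) (gauss G Γ))
    (hdom : ∀ a₀ ∈ D, ∃ ε > 0, ∃ P : (G.V → ℝ) → ℝ,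
      (∀ c : ℝ, Integrable (fun ζ => Real.exp (c * (η ⬝ᵥ ζ)) * P ζ) (gauss G Γ)) ∧
      ∀ a ∈ Metric.ball a₀ ε, ∀ ζ, ‖Ψ a ζ‖ ≤ P ζ)
    (hreal : ∀ σ : ℝ, (σ : ℂ) ∈ D → ∀ ζ, Ψ σ ζ = Ψ 0 (ζ + σ • Γ.mulVec η))
    (a : ℂ) (ha : a ∈ D) :
    ∫ ζ, Ψ 0 ζ ∂(gauss G Γ) = ∫ ζ, cmW Γ η a ζ * Ψ a ζ ∂(gauss G Γ) := by
  have hd : DifferentiableOn ℂ (fun a => ∫ ζ, cmW Γ η a ζ * Ψ a ζ ∂(gauss G Γ)) D := by
    refine hol_integral (gauss G Γ) _ hD (fun a ζ => cmW Γ η a ζ * Ψ a ζ) (fun ζ => ?_) (fun a ha => ?_) (fun a₀ ha₀ => ?_)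
    · exact (cmW_differentiable Γ η ζ).differentiableOn.mul (hhol ζ)
    · exact (cmW_continuous Γ η a).aestronglyMeasurable.mul (hmeas a ha)
    · obtain ⟨ε, hε, P, hP, hb⟩ := hdom a₀ ha₀
      set ε' := min 1 ε with hε'
      have hε'0 : 0 < ε' := lt_min one_pos hε
      refine ⟨ε', hε'0, fun ζ => Real.exp ((‖a₀‖ + 1) ^ 2 * |η ⬝ᵥ Γ.mulVec η| / 2)
        * (Real.exp (-(a₀.re - ε') * (η ⬝ᵥ ζ)) * P ζ + Real.exp (-(a₀.re + ε') * (η ⬝ᵥ ζ)) * P ζ), ?_, fun a ha ζ => ?_⟩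
      · exact ((hP _).add (hP _)).const_mul _
      · have ha' : ‖a - a₀‖ < ε' := by rwa [Metric.mem_ball, dist_eq_norm] at ha
        have h1 := norm_cmW_le Γ η a a₀ ε' (min_le_left _ _) ha' ζ
        have h2 := hb a (Metric.ball_subset_ball (min_le_right _ _) ha) ζ
        rw [norm_mul]
        calc ‖cmW Γ η a ζ‖ * ‖Ψ a ζ‖ ≤ (Real.exp ((‖a₀‖ + 1) ^ 2 * |η ⬝ᵥ Γ.mulVec η| / 2)
              * (Real.exp (-(a₀.re - ε') * (η ⬝ᵥ ζ)) + Real.exp (-(a₀.re + ε') * (η ⬝ᵥ ζ)))) * P ζ :=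
              mul_le_mul h1 h2 (norm_nonneg _) (by positivity)
          _ = _ := by ring
  have key := eqOn_of_real_eq hD hc hd (differentiableOn_const (∫ ζ, Ψ 0 ζ ∂(gauss G Γ))) h0
    (fun σ hσ => by
      simp_rw [hreal σ hσ]
      exact cmW_real Γ hΓ η (Ψ 0) σ) ha
  exact key.symm

/-- **complex Cameron-Martin for a charged function**: `F (z + c) = e^{i k c} F z` for real constants `c`.  The constant part `w0` of the shift `Γ η`
is taken out by the charge, only `Γ η - w0` has to fit in the strip. -/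
theorem gauss_shift_charged (p : Par) (g : Grid G) (V : Extra g) (X : Finset g.I) (Γ : Matrix G.V G.V ℝ) (hΓ : Γ.PosSemidef) (F : Fn G)
    (hF : Hol p.h0 g X F) (hfin : fnSize p g V X F ≠ ⊤)
    (hint : ∀ φ : G.V → ℝ, ∫⁻ ζ, ENNReal.ofReal (Wt g p.δ p.κ V X (φ + ζ)) ∂(gauss G Γ) ≠ ⊤)
    (k : ℝ) (hk : ∀ z ∈ strip p.h0 g X, ∀ c : ℝ, F (fun v => z v + (c : ℂ)) = Complex.exp (Complex.I * k * c) * F z)
    (η : G.V → ℝ) (w0 s : ℝ) (z : G.V → ℂ)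
    (hz : tnorm g X (fun v => (z v).im) + (‖s‖₊ : ℝ≥0) * tnorm g X (fun v => Γ.mulVec η v - w0) < p.h0) :
    conv Γ F z = Complex.exp ((s ^ 2 * (η ⬝ᵥ Γ.mulVec η) / 2 - k * s * w0 : ℝ)) *
      ∫ ζ, Complex.exp (-(Complex.I * ((s * (η ⬝ᵥ ζ) : ℝ) : ℂ))) *
        F (z + toC ζ + (Complex.I * s) • toC (fun v => Γ.mulVec η v - w0)) ∂(gauss G Γ) := by
  set u : G.V → ℝ := fun v => Γ.mulVec η v - w0 with hu
  have hz0 : z ∈ strip p.h0 g X := lt_of_le_of_lt le_self_add hz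
  have hIs : Complex.I * s ∈ lineDom p.h0 g X z u := by
    show z + (Complex.I * s) • toC u ∈ strip p.h0 g X
    rw [mem_strip]
    have h1 : (fun v => ((z + (Complex.I * s) • toC u) v).im) = (fun v => (z v).im) + s • u := by
      ext v; simp [toC]
    rw [h1]
    refine (tnorm_add_le g X _ _).trans_lt ?_
    rwa [tnorm_smul]
  have h0 : (0 : ℂ) ∈ lineDom p.h0 g X z u := by
    have := real_mem_lineDom hz0 u 0
    simpa using this
  have hre : ∀ (a : ℂ) (ζ : G.V → ℝ), z + toC ζ + a • toC u = z + a • toC u + toC ζ := fun a ζ => by abel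
  set Ψ : ℂ → (G.V → ℝ) → ℂ := fun a ζ => Complex.exp (Complex.I * k * a * w0) * F (z + toC ζ + a • toC u) with hΨ
  have key := gauss_shift_line Γ hΓ η (lineDom p.h0 g X z u) (lineDom_isOpen _ _ _ _ _)
    (lineDom_convex _ _ _ _ _).isPreconnected h0 Ψ (fun ζ => ?_) (fun a ha => ?_) (fun a₀ ha₀ => ?_) (fun σ hσ ζ => ?_)
    (Complex.I * s) hIs
  · have h1 : conv Γ F z = ∫ ζ, Ψ 0 ζ ∂(gauss G Γ) := by
      unfold conv
      refine integral_congr_ae (Eventually.of_forall fun ζ => ?_)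
      simp [hΨ]
    rw [h1, key, ← integral_const_mul]
    refine integral_congr_ae (Eventually.of_forall fun ζ => ?_)
    simp only [cmW, hΨ]
    rw [← mul_assoc, ← Complex.exp_add, ← mul_assoc (Complex.exp _) (Complex.exp _), ← Complex.exp_add]
    congr 2
    push_cast
    have hI : Complex.I ^ 2 = -1 := Complex.I_sq
    linear_combination (-(s : ℂ) ^ 2 * ((η ⬝ᵥ Γ.mulVec η : ℝ) : ℂ) / 2 + (k : ℂ) * s * w0) * hI
  · refine DifferentiableOn.mul (by fun_prop) ?_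
    refine hF.comp (by fun_prop) fun a ha => ?_
    rw [hre]
    exact strip_add_toC ha ζ
  · refine Continuous.aestronglyMeasurable (continuous_const.mul ?_)
    simp_rw [hre]
    exact continuous_comp_shift hF ha
  · obtain ⟨ε, hε, hb⟩ := strip_local_bound p g V X F hfin ha₀
    set φ₀ : G.V → ℝ := fun v => ((z + a₀ • toC u) v).re with hφ₀
    set C := Real.exp (|k * w0| * (‖a₀‖ + 1)) with hC
    refine ⟨min 1 (ε / (‖toC u‖ + 1)), lt_min one_pos (by positivity),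
      fun ζ => C * (ptNorm p.h0 g X F (φ₀ + ζ)).toReal, fun c => ?_, fun a ha ζ => ?_⟩
    · have h1 := (exp_ptNorm_integrable p g V X Γ hΓ F hF hfin hint η φ₀ c).const_mul C
      refine h1.congr (Eventually.of_forall fun ζ => ?_)
      simp only
      ring
    · rw [Metric.mem_ball, dist_eq_norm] at ha
      have ha1 : ‖a - a₀‖ < 1 := ha.trans_le (min_le_left _ _)
      have ha2 : ‖a - a₀‖ < ε / (‖toC u‖ + 1) := ha.trans_le (min_le_right _ _)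
      have hw' : z + a • toC u ∈ Metric.ball (z + a₀ • toC u) ε := by
        rw [Metric.mem_ball, dist_eq_norm]
        have h1 : z + a • toC u - (z + a₀ • toC u) = (a - a₀) • toC u := by rw [sub_smul]; abel
        rw [h1, norm_smul]
        calc ‖a - a₀‖ * ‖toC u‖ ≤ ‖a - a₀‖ * (‖toC u‖ + 1) := by gcongr; linarith
          _ < ε / (‖toC u‖ + 1) * (‖toC u‖ + 1) := by gcongr
          _ = ε := by field_simp
      have hFb := hb _ hw' ζ
      simp only [hΨ]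
      rw [hre, norm_mul, Complex.norm_exp]
      refine mul_le_mul (Real.exp_le_exp.2 ?_) hFb (norm_nonneg _) (Real.exp_pos _).le
      have h2 : (Complex.I * k * a * w0).re = -(k * w0 * a.im) := by
        simp [Complex.mul_re, Complex.mul_im]
        ring
      rw [h2]
      have h3 : |a.im| ≤ ‖a₀‖ + 1 := by
        calc |a.im| ≤ ‖a‖ := Complex.abs_im_le_norm _
          _ = ‖a₀ + (a - a₀)‖ := by congr 1; ring
          _ ≤ ‖a₀‖ + ‖a - a₀‖ := norm_add_le _ _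
          _ ≤ ‖a₀‖ + 1 := by linarith
      calc -(k * w0 * a.im) ≤ |k * w0 * a.im| := neg_le_abs _
        _ = |k * w0| * |a.im| := abs_mul _ _
        _ ≤ |k * w0| * (‖a₀‖ + 1) := by gcongr
  · simp only [hΨ]
    have h1 : z + toC (ζ + σ • Γ.mulVec η) + (0 : ℂ) • toC u = fun v => (z + toC ζ + (σ : ℂ) • toC u) v + ((σ * w0 : ℝ) : ℂ) := by
      ext v
      simp only [hu, toC, Pi.add_apply, Pi.smul_apply, smul_eq_mul]
      push_cast
      ring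
    have h2 : z + toC ζ + (σ : ℂ) • toC u ∈ strip p.h0 g X := by
      rw [hre]
      exact strip_add_toC hσ ζ
    rw [h1, hk _ h2]
    simp only [mul_zero, zero_mul, Complex.exp_zero, one_mul]
    congr 2
    push_cast
    ring

end

end Claimed.Agent.R285.Hol
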